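import Vale.Agent.P366M.Map
import Vale.Agent.P366M.Int
import Vale.Agent.P366D.Parm

/-!
# P210V: extension of tensors from an embedded manifold
-/

open Filter Topology Set Matrix
open scoped ContDiff
open Vale.Agent.P366.Stmt (E)
open Vale.Agent.P366M
open Vale.Agent.P366D (Sub SmM pull jm pull_apply pull_pull pull_congr pull_id cd_rep_pull pull_sy)

noncomputable section

namespace Vale.Agent.P210V

variable {n k : ℕ} {X Z : Type} [Mf0 n X] [Mf0 k Z] {ι : Z → X} {B : Set X}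

/-- smooth local retractions -/
theorem retr (h : Sub ι B) (z : Z) : ∃ (O : Set X) (ρ : X → Z), IsOpen O ∧ ι z ∈ O ∧
    (∀ x ∈ O, SmM ρ x) ∧ ∀ z', ι z' ∈ O → ρ (ι z') = z' := by
  obtain ⟨G, h1, h2⟩ := h.ext z
  let L := fderiv ℝ G (pt (ι z))
  let F := mp (ch z) (ch (ι z)) ι
  have c1 : Continuous fun y => ι ((ch z).symm y) := h.emb.continuous.comp (cont_symm (ch_mem z))
  have hF : ∀ y, ι ((ch z).symm y) ∈ (ch (ι z)).source → ContDiffAt ℝ ∞ F y := fun y hy =>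
    (h.sm _).cd (ch_mem z) (ch_mem _) hy
  have m0 : ι ((ch z).symm (pt z)) ∈ (ch (ι z)).source := by rw [symm_pt]; exact mem_ch _
  have d1 := ((hF _ m0).differentiableAt (by simp)).hasFDerivAt
  have d2 : HasFDerivAt G L (F (pt z)) := by
    rw [show F (pt z) = pt (ι z) from mp_pt ι z]
    exact (h1.differentiableAt (by simp)).hasFDerivAt
  have d3 : HasFDerivAt (fun y => L (F y))
      ((ContinuousLinearEquiv.refl ℝ (E k) : E k ≃L[ℝ] E k) : E k →L[ℝ] E k) (pt z) := by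
    have h3 : (fun y => y) =ᶠ[𝓝 (pt z)] G ∘ F := (ev_pt.1 h2).mono fun y hy => by
      rw [right_inv (ch_mem z)] at hy; exact hy
    rw [show ((ContinuousLinearEquiv.refl ℝ (E k) : E k ≃L[ℝ] E k) : E k →L[ℝ] E k) = _ from
      (hasFDerivAt_id _).unique ((d2.comp _ d1).congr_of_eventuallyEq h3)]
    exact L.hasFDerivAt.comp _ d1
  obtain ⟨θ, t1, -, t3, t4⟩ := P366N.locdiff (U := {y | ι ((ch z).symm y) ∈ (ch (ι z)).source})
    ((ch (ι z)).open_source.preimage c1) m0 (fun y hy => L.contDiff.contDiffAt.comp y (hF y hy)) _ d3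
  obtain ⟨O, o1, o2⟩ := h.emb.isInducing.isOpen_iff.1
    ((ch z).isOpen_inter_preimage θ.open_source)
  refine ⟨O ∩ ((ch (ι z)).source ∩ ch (ι z) ⁻¹' (L ⁻¹' θ.target)),
    fun x => (ch z).symm (θ.symm (L (ch (ι z) x))),
    o1.inter ((ch (ι z)).isOpen_inter_preimage (θ.open_target.preimage L.continuous)),
    ⟨?_, mem_ch _, ?_⟩, fun x hx => ?_, fun z' hz => ?_⟩
  · exact (o2.ge ⟨mem_ch z, t1⟩ : z ∈ ι ⁻¹' O)
  · have := θ.map_source t1
    rwa [t3, Function.comp, show F (pt z) = pt (ι z) from mp_pt ι z] at this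
  · refine P366D.smM_of (ch_mem (ι z)) hx.2.1 ((P366D.SmP.comp (σ := fun y => θ.symm (L y))
      (P366D.smP_symm (ch_mem z) _) ((t4.inv _ hx.2.2).comp _ L.contDiff.contDiffAt)).congr
      (.of_forall fun y => ?_))
    simp only [loc, right_inv (ch_mem _)]
  · have k : z' ∈ (ch z).source ∩ ch z ⁻¹' θ.source := o2.le hz.1
    have k1 := θ.left_inv k.2
    rw [t3] at k1
    simp only [F, mp, (ch z).left_inv k.1, Function.comp] at k1
    simp only [k1, (ch z).left_inv k.1]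

section cut

variable {V : Set X} {Φ : X → Z} {χ : X → ℝ} (hV : IsOpen V) (hΦ : ∀ x ∈ V, SmM Φ x)
  (hχ : Smooth χ) (hs : tsupport χ ⊆ V)
include hV hΦ hχ hs

theorem smT_cut {T : Fld k Z} (hT : SmT T) : SmT fun x i j => χ x * pull Φ T x i j :=
  smT_of fun x => ⟨_, ch_mem x, mem_ch x, fun i j => by
    by_cases hx : x ∈ V
    · have h1 := cd_rep_pull (ch_mem x) (y := pt x)
        (by rw [symm_pt]; exact eventually_of_mem (hV.mem_nhds hx) hΦ) hT i j
      refine (ContDiffAt.mul hχ.contDiffAt h1).congr_of_eventuallyEq (.of_forall fun z => ?_)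
      simp only [rep, loc, Finset.mul_sum, mul_left_comm]
    · refine (contDiffAt_const (c := (0 : ℝ))).congr_of_eventuallyEq ?_
      filter_upwards [ev_pt.1 (notMem_tsupport_iff_eventuallyEq.1 fun k => hx (hs k))] with z hz
      simp [rep, hz]⟩

theorem cc_cut {a : Fin k → Z → ℝ} (ha : CC ∞ a) : CC ∞ fun i x => χ x * pullC Φ a i x :=
  cc_of le_rfl fun x => ⟨_, ch_mem x, mem_ch x, fun i => by
    by_cases hx : x ∈ V
    · have h0 : SmM Φ ((ch x).symm (pt x)) := by rw [symm_pt]; exact hΦ x hx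
      have h1 := h0.cd (ch_mem x) (ch_mem _) (mem_ch _)
      refine (ContDiffAt.mul hχ.contDiffAt (ContDiffAt.sum (s := Finset.univ) fun b _ =>
        (cd_jac h1 b i).mul ((ha _ (ch_mem (Φ ((ch x).symm (pt x)))) b).contDiffAt.comp _
          h1))).congr_of_eventuallyEq ?_
      filter_upwards [P366D.ev_source (h0.lc (ch_mem x)).ct (mem_ch _),
        ev_pt.1 (hV.mem_nhds hx)] with z h2 h3
      refine Eq.trans ?_ (congrArg _ (repC_pull (ch_mem x) (ch_mem _) (hΦ _ h3) h2 a i))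
      simp only [repC, loc, Finset.mul_sum, mul_left_comm]
    · refine (contDiffAt_const (c := (0 : ℝ))).congr_of_eventuallyEq ?_
      filter_upwards [ev_pt.1 (notMem_tsupport_iff_eventuallyEq.1 fun k => hx (hs k))] with z hz
      simp [repC, hz]⟩

omit hV in
theorem sm_cut {u : Z → ℝ} (hu : Smooth u) : Smooth fun x => χ x * u (Φ x) :=
  cd_of_cAt le_rfl fun x => by
    by_cases hx : x ∈ V
    · exact ContDiffAt.mul hχ.contDiffAt ((hΦ x hx).cAt le_rfl hu.contDiffAt)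
    · refine (cAt_const (c := (0 : ℝ))).congr_of_eventuallyEq ?_
      filter_upwards [notMem_tsupport_iff_eventuallyEq.1 fun k => hx (hs k)] with z hz
      simp [hz]

end cut

theorem quad_pull (Φ : X → Z) (T : Fld k Z) (x : X) (ξ : Fin n → ℝ) :
    ∑ i, ∑ j, pull Φ T x i j * ξ i * ξ j =
      ∑ a, ∑ b, T (Φ x) a b * (jm Φ x *ᵥ ξ) a * (jm Φ x *ᵥ ξ) b := by
  simp only [pull_apply, mulVec, dotProduct, Finset.sum_mul, Finset.mul_sum]
  rw [Finset.sum_congr rfl fun i _ => Finset.sum_comm, Finset.sum_comm]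
  refine Finset.sum_congr rfl fun a _ => ?_
  rw [Finset.sum_congr rfl fun i _ => Finset.sum_comm, Finset.sum_comm]
  refine Finset.sum_congr rfl fun b _ => ?_
  rw [Finset.sum_comm]
  exact Finset.sum_congr rfl fun _ _ => Finset.sum_congr rfl fun _ _ => by ring

/-- the data of an extension operator for the compact set `K` -/
structure Ex (ι : Z → X) (K : Set Z) (V : Set X) where
  t : Finset X
  χ : X → X → ℝ
  ρ : X → X → Z
  O : X → Set X
  C : Set X
  cpt : IsCompact C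
  sub : C ⊆ V
  opn : ∀ p ∈ t, IsOpen (O p)
  smρ : ∀ p ∈ t, ∀ x ∈ O p, SmM (ρ p) x
  ret : ∀ p ∈ t, ∀ z, ι z ∈ O p → ρ p (ι z) = z
  smχ : ∀ p, Smooth (χ p)
  supp : ∀ p ∈ t, tsupport (χ p) ⊆ O p ∩ C
  nn : ∀ p x, 0 ≤ χ p x
  le : ∀ x, ∑ p ∈ t, χ p x ≤ 1
  one : ∀ z ∈ K, ∀ᶠ x in 𝓝 (ι z), ∑ p ∈ t, χ p x = 1

theorem exists_Ex (h : Sub ι B) {K : Set Z} (hK : IsCompact K) {V : Set X} (hV : IsOpen V)
    (hKV : ∀ z ∈ K, ι z ∈ V) : Nonempty (Ex ι K V) := by
  classical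
  have hK' := hK.image h.emb.continuous
  obtain ⟨C, c1, c2, c3⟩ := exists_compact_between hK' hV (image_subset_iff.2 hKV)
  choose O ρ o1 o2 o3 o4 using retr h
  let s : X → Z := fun p => if k : p ∈ ι '' K then k.choose else Classical.arbitrary Z
  have hs : ∀ p ∈ ι '' K, ι (s p) = p := fun p k => by simp only [s, dif_pos k, k.choose_spec.2]
  obtain ⟨t, χ, h1, h2, h3, h4, h5⟩ := exists_pou hK'
    (fun p => if p ∈ ι '' K then O (s p) ∩ C else (ι '' K)ᶜ) fun p => by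
      split_ifs with k
      · exact inter_mem ((o1 _).mem_nhds (by simpa only [hs p k] using o2 (s p))) (mem_interior_iff_mem_nhds.1 (c2 k))
      · exact hK'.isClosed.isOpen_compl.mem_nhds k
  refine ⟨⟨t.filter (· ∈ ι '' K), χ, fun p => ρ (s p), fun p => O (s p), C, c1, c3,
    fun p _ => o1 _, fun p _ => o3 _, fun p _ => o4 _, h1, fun p hp => ?_, h3, fun x => ?_,
    fun z hz => ?_⟩⟩
  · simpa only [if_pos (Finset.mem_filter.1 hp).2] using h2 p
  · exact (Finset.sum_le_sum_of_subset_of_nonneg (Finset.filter_subset _ _)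
      fun p _ _ => h3 p x).trans (h4 x)
  · have h6 : ∀ p ∈ t, ∀ᶠ x in 𝓝 (ι z), p ∉ ι '' K → χ p x = 0 := fun p _ => by
      by_cases k : p ∈ ι '' K
      · exact .of_forall fun _ q => absurd k q
      · refine (notMem_tsupport_iff_eventuallyEq.1 fun q => ?_).mono fun _ q _ => q
        have := h2 p q
        rw [if_neg k] at this
        exact this (mem_image_of_mem ι hz)
    filter_upwards [h5 _ (mem_image_of_mem ι hz), (eventually_all_finset t).2 h6] with x a b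
    rw [← a]
    exact Finset.sum_filter_of_ne fun p hp k => by_contra fun q => k (b p hp q)

namespace Ex

variable {K : Set Z} {V : Set X} (D : Ex ι K V) {T S : Fld k Z} {U W : Fin k → Z → ℝ} {a b : Z → ℝ}
  {x : X} {z : Z}

/-- the extension of a function -/
def eF (a : Z → ℝ) (x : X) : ℝ := ∑ p ∈ D.t, D.χ p x * a (D.ρ p x)

/-- the extension of a one-form -/
def eC (U : Fin k → Z → ℝ) : Fin n → X → ℝ := fun i x => ∑ p ∈ D.t, D.χ p x * pullC (D.ρ p) U i x

/-- the extension of a tensor -/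
def eT (T : Fld k Z) : Fld n X := fun x i j => ∑ p ∈ D.t, D.χ p x * pull (D.ρ p) T x i j

/-- the total weight -/
def wt (x : X) : ℝ := ∑ p ∈ D.t, D.χ p x

theorem sm_wt : Smooth D.wt := CD.sum fun p _ => D.smχ p

theorem wt_nn (x : X) : 0 ≤ D.wt x := Finset.sum_nonneg fun p _ => D.nn p x

theorem wt_le (x : X) : D.wt x ≤ 1 := D.le x

theorem wt_one (hz : z ∈ K) : D.wt =ᶠ[𝓝 (ι z)] fun _ => 1 := D.one z hz

theorem sm_eF (ha : Smooth a) : Smooth (D.eF a) := CD.sum fun p hp =>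
  sm_cut (D.smρ p hp) (D.smχ p) ((D.supp p hp).trans inter_subset_left) ha

theorem cc_eC (hU : CC ∞ U) : CC ∞ (D.eC U) := CC.sum fun p hp =>
  cc_cut (D.opn p hp) (D.smρ p hp) (D.smχ p) ((D.supp p hp).trans inter_subset_left) hU

theorem smT_eT (hT : SmT T) : SmT (D.eT T) := SmT.sum fun p hp =>
  smT_cut (D.opn p hp) (D.smρ p hp) (D.smχ p) ((D.supp p hp).trans inter_subset_left) hT

theorem χ_off (hx : x ∉ D.C) {p : X} (hp : p ∈ D.t) : D.χ p x = 0 :=
  image_eq_zero_of_notMem_tsupport fun k => hx (D.supp p hp k).2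

theorem eF_off (hx : x ∉ D.C) (a : Z → ℝ) : D.eF a x = 0 :=
  Finset.sum_eq_zero fun p hp => by rw [D.χ_off hx hp, zero_mul]

theorem eC_off (hx : x ∉ D.C) (U : Fin k → Z → ℝ) (i : Fin n) : D.eC U i x = 0 :=
  Finset.sum_eq_zero fun p hp => by rw [D.χ_off hx hp, zero_mul]

theorem eT_off (hx : x ∉ D.C) (T : Fld k Z) : D.eT T x = 0 := funext fun i => funext fun j =>
  Finset.sum_eq_zero fun p hp => by rw [D.χ_off hx hp, zero_mul]

theorem wt_off (hx : x ∉ D.C) : D.wt x = 0 := Finset.sum_eq_zero fun _ hp => D.χ_off hx hp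

theorem eT_sy (h : ∀ z i j, T z i j = T z j i) (x : X) (i j : Fin n) :
    D.eT T x i j = D.eT T x j i := Finset.sum_congr rfl fun p _ => by rw [pull_sy (h _)]

theorem eT_quad (T : Fld k Z) (x : X) (ξ : Fin n → ℝ) : ∑ i, ∑ j, D.eT T x i j * ξ i * ξ j =
    ∑ p ∈ D.t, D.χ p x * ∑ a, ∑ b, T (D.ρ p x) a b * (jm (D.ρ p) x *ᵥ ξ) a *
      (jm (D.ρ p) x *ᵥ ξ) b := by
  simp only [← quad_pull]
  simp only [eT, Finset.sum_mul, Finset.mul_sum, mul_assoc]
  rw [Finset.sum_congr rfl fun i _ => Finset.sum_comm, Finset.sum_comm]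

theorem eT_psd (h : ∀ z (ξ : Fin k → ℝ), 0 ≤ ∑ i, ∑ j, T z i j * ξ i * ξ j) (x : X)
    (ξ : Fin n → ℝ) : 0 ≤ ∑ i, ∑ j, D.eT T x i j * ξ i * ξ j := by
  rw [eT_quad]
  exact Finset.sum_nonneg fun p _ => mul_nonneg (D.nn p x) (h _ _)

theorem eF_nn (h : ∀ z, 0 ≤ a z) (x : X) : 0 ≤ D.eF a x :=
  Finset.sum_nonneg fun p _ => mul_nonneg (D.nn p x) (h _)

theorem eF_mono (h : ∀ z, a z ≤ b z) (x : X) : D.eF a x ≤ D.eF b x :=
  Finset.sum_le_sum fun p _ => mul_le_mul_of_nonneg_left (h _) (D.nn p x)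

theorem eF_const (c : ℝ) (x : X) : D.eF (fun _ => c) x = D.wt x * c := (Finset.sum_mul _ _ _).symm

theorem eF_lin (s t : ℝ) (a b : Z → ℝ) (x : X) :
    D.eF (fun z => s * a z + t * b z) x = s * D.eF a x + t * D.eF b x := by
  simp only [eF, Finset.mul_sum, ← Finset.sum_add_distrib]
  exact Finset.sum_congr rfl fun _ _ => by ring

theorem eC_lin (s t : ℝ) (U W : Fin k → Z → ℝ) (i : Fin n) (x : X) :
    D.eC (fun i z => s * U i z + t * W i z) i x = s * D.eC U i x + t * D.eC W i x := by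
  simp only [eC, pullC, Finset.mul_sum, ← Finset.sum_add_distrib]
  exact Finset.sum_congr rfl fun _ _ => Finset.sum_congr rfl fun _ _ => by ring

theorem eT_lin (s t : ℝ) (T S : Fld k Z) (x : X) (i j : Fin n) :
    D.eT (fun z i j => s * T z i j + t * S z i j) x i j = s * D.eT T x i j + t * D.eT S x i j := by
  simp only [eT, pull_apply, Finset.mul_sum, ← Finset.sum_add_distrib]
  exact Finset.sum_congr rfl fun _ _ => Finset.sum_congr rfl fun _ _ =>
    Finset.sum_congr rfl fun _ _ => by ring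

theorem abs_eF_le {c : ℝ} (h : ∀ z, |a z| ≤ c) (x : X) : |D.eF a x| ≤ c := by
  have c0 := (abs_nonneg _).trans (h (Classical.arbitrary Z))
  have h1 := D.eF_mono (fun z => (abs_le.1 (h z)).1) x
  have h2 := D.eF_mono (fun z => (abs_le.1 (h z)).2) x
  rw [eF_const] at h1 h2
  have := D.wt_le x
  have := D.wt_nn x
  exact abs_le.2 ⟨by nlinarith, by nlinarith⟩

theorem mem_O {p : X} (hp : p ∈ D.t) (k : D.χ p x ≠ 0) : x ∈ D.O p :=
  (D.supp p hp (subset_tsupport _ k)).1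

theorem eF_ι (a : Z → ℝ) (z : Z) : D.eF a (ι z) = D.wt (ι z) * a z := by
  rw [wt, Finset.sum_mul]
  refine Finset.sum_congr rfl fun p hp => ?_
  by_cases k : D.χ p (ι z) = 0
  · simp [k]
  · rw [D.ret p hp z (D.mem_O hp k)]

variable (h : Sub ι B)
include h

theorem jm_ret {p : X} (hp : p ∈ D.t) (k : ι z ∈ D.O p) : jm (D.ρ p) (ι z) * jm ι z = 1 := by
  rw [← jm_comp (D.smρ p hp _ k) (h.sm z), ← jm_id z]
  exact jm_congr ((h.emb.continuous.continuousAt.eventually ((D.opn p hp).mem_nhds k)).mono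
    (D.ret p hp))

theorem pull_eC (U : Fin k → Z → ℝ) (i : Fin k) (z : Z) :
    pullC ι (D.eC U) i z = D.wt (ι z) * U i z := by
  simp only [pullC, eC, wt, Finset.sum_mul, Finset.mul_sum]
  rw [Finset.sum_comm]
  refine Finset.sum_congr rfl fun p hp => ?_
  by_cases k : D.χ p (ι z) = 0
  · simp [k]
  have h1 := fun b => congrFun (congrFun (D.jm_ret h hp (D.mem_O hp k)) b) i
  rw [D.ret p hp z (D.mem_O hp k), Finset.sum_comm, Finset.sum_congr rfl fun b _ =>
    show _ = (1 : Matrix _ _ ℝ) b i * (D.χ p (ι z) * U b z) by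
      rw [← h1, Matrix.mul_apply, Finset.sum_mul]
      exact Finset.sum_congr rfl fun _ _ => by ring]
  simp [Matrix.one_apply]

theorem pull_eT (T : Fld k Z) (z : Z) (i j : Fin k) :
    pull ι (D.eT T) z i j = D.wt (ι z) * T z i j := by
  have : pull ι (D.eT T) z i j = ∑ p ∈ D.t, D.χ p (ι z) * pull ι (pull (D.ρ p) T) z i j := by
    simp only [pull_apply ι, eT, Finset.mul_sum]
    rw [Finset.sum_congr rfl fun i _ => Finset.sum_comm, Finset.sum_comm]
    exact Finset.sum_congr rfl fun _ _ => Finset.sum_congr rfl fun _ _ =>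
      Finset.sum_congr rfl fun _ _ => by ring
  rw [this, wt, Finset.sum_mul]
  refine Finset.sum_congr rfl fun p hp => ?_
  by_cases k : D.χ p (ι z) = 0
  · simp [k]
  rw [pull_pull (D.smρ p hp _ (D.mem_O hp k)) (h.sm z), pull_congr (Ψ := fun z => z) (S := T)
    ((h.emb.continuous.continuousAt.eventually ((D.opn p hp).mem_nhds (D.mem_O hp k))).mono
      (D.ret p hp)) rfl, pull_id]

omit h in
theorem wt_mul {c : ℝ} (h0 : z ∉ K → c = 0) : D.wt (ι z) * c = c := by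
  by_cases k : z ∈ K
  · rw [(D.wt_one k).self_of_nhds, one_mul]
  · rw [h0 k, mul_zero]

omit h in
theorem eF_ι' (h0 : ∀ z ∉ K, a z = 0) (z : Z) : D.eF a (ι z) = a z :=
  (D.eF_ι a z).trans (D.wt_mul (h0 z))

theorem pull_eC' (h0 : ∀ z ∉ K, ∀ i, U i z = 0) : pullC ι (D.eC U) = U :=
  funext fun i => funext fun z => (D.pull_eC h U i z).trans (D.wt_mul fun k => h0 z k i)

theorem pull_eT' (h0 : ∀ z ∉ K, T z = 0) : pull ι (D.eT T) = T :=
  funext fun z => funext fun i => funext fun j =>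
    (D.pull_eT h T z i j).trans (D.wt_mul fun k => by rw [h0 z k]; rfl)

end Ex

/-- **EXT**, existence form; the compact set `C` is the same for all tensors -/
theorem ext (h : Sub ι B) {K : Set Z} (hK : IsCompact K) {V : Set X} (hV : IsOpen V)
    (hKV : ∀ z ∈ K, ι z ∈ V) : ∃ C, IsCompact C ∧ C ⊆ V ∧
    (∀ T : Fld k Z, SmT T → (∀ z i j, T z i j = T z j i) → (∀ z ∉ K, T z = 0) →
      ∃ T' : Fld n X, SmT T' ∧ (∀ x i j, T' x i j = T' x j i) ∧ pull ι T' = T ∧
        (∀ x ∉ C, T' x = 0) ∧ ((∀ z (ξ : Fin k → ℝ), 0 ≤ ∑ i, ∑ j, T z i j * ξ i * ξ j) →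
          ∀ x (ξ : Fin n → ℝ), 0 ≤ ∑ i, ∑ j, T' x i j * ξ i * ξ j)) ∧
    (∀ U : Fin k → Z → ℝ, CC ∞ U → (∀ z ∉ K, ∀ i, U i z = 0) →
      ∃ U' : Fin n → X → ℝ, CC ∞ U' ∧ pullC ι U' = U ∧ ∀ x ∉ C, ∀ i, U' i x = 0) ∧
    ∀ a : Z → ℝ, Smooth a → (∀ z ∉ K, a z = 0) → ∃ a' : X → ℝ, Smooth a' ∧
      (∀ z, a' (ι z) = a z) ∧ (∀ x ∉ C, a' x = 0) ∧ ((∀ z, 0 ≤ a z) → ∀ x, 0 ≤ a' x) ∧
      ∀ c, (∀ z, |a z| ≤ c) → ∀ x, |a' x| ≤ c := by
  obtain ⟨D⟩ := exists_Ex h hK hV hKV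
  exact ⟨D.C, D.cpt, D.sub, fun T a b c => ⟨_, D.smT_eT a, D.eT_sy b, D.pull_eT' h c,
    fun x hx => D.eT_off hx T, D.eT_psd⟩, fun U a b => ⟨_, D.cc_eC a, D.pull_eC' h b,
    fun x hx => D.eC_off hx U⟩, fun a b c => ⟨_, D.sm_eF b, D.eF_ι' c, fun x hx => D.eF_off hx a,
    D.eF_nn, fun _ => D.abs_eF_le⟩⟩

end Vale.Agent.P210V
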