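import Vale.Agent.P210S.Defs
import Vale.Agent.P210U.Loc

/-!
# P210V: energies of families of amplitudes (renormalisation, merging, mixing, averaging)
-/

open Filter Topology Set
open scoped ContDiff
open Vale.Agent.P366M Vale.Agent.P366M.Gr Vale.Agent.P366M.Y.C Vale.Agent.P210G Vale.Agent.P210U
  Vale.Agent.P210S

noncomputable section

namespace Vale.Agent.P210V

variable {n : ℕ} {X : Type} [Mf0 n X] {g : Fld n X} {x : X} {J : Type} [Fintype J]

/-! ### Cauchy-Schwarz for sums of differentials -/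

theorem ip_sum_left {ι : Type*} (s : Finset ι) {u : X → ℝ} {A : ι → X → ℝ} {t : ι → ℝ}
    (h : ∀ i, pd i u x = ∑ k ∈ s, t k * pd i (A k) x) (v : X → ℝ) :
    ip g u v x = ∑ k ∈ s, t k * ip g (A k) v x :=
  iv_sum (a := df u) (A := fun k => df (A k)) s h (df v)

/-- `c du = ∑ t k dA k` and `|t k dA k|² ≤ a k b k` give `|c du|² ≤ (∑ a) (∑ b)` -/
theorem ip_sum_le (hg : Met g) {ι : Type*} (s : Finset ι) {u : X → ℝ} {c : ℝ} {A : ι → X → ℝ}
    {t a b : ι → ℝ} (h : ∀ i, c * pd i u x = ∑ k ∈ s, t k * pd i (A k) x)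
    (ha : ∀ k ∈ s, 0 ≤ a k) (hb : ∀ k ∈ s, 0 ≤ b k)
    (hab : ∀ k ∈ s, t k ^ 2 * ip g (A k) (A k) x ≤ a k * b k) :
    c ^ 2 * ip g u u x ≤ (∑ k ∈ s, a k) * ∑ k ∈ s, b k := by
  have e1 : c ^ 2 * ip g u u x =
      iv g (fun i y => c * pd i u y) (fun i y => c * pd i u y) x := by
    rw [iv_smul (s := c) (t := c) (a := df u) (b := df u) (fun _ => rfl) fun _ => rfl, iv_df]; ring
  have e2 : ∀ d, iv g (fun i y => c * pd i u y) d x = ∑ k ∈ s, t k * iv g (df (A k)) d x :=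
    iv_sum (A := fun k => df (A k)) s h
  have e3 : c ^ 2 * ip g u u x = ∑ k ∈ s, ∑ l ∈ s, t k * t l * ip g (A l) (A k) x := by
    rw [e1, e2]
    refine Finset.sum_congr rfl fun k _ => ?_
    rw [iv_sy hg, e2, Finset.mul_sum]
    exact Finset.sum_congr rfl fun l _ => by rw [iv_df]; ring
  have e4 : (∑ k ∈ s, a k) * ∑ k ∈ s, b k =
      ∑ k ∈ s, ∑ l ∈ s, (a k * b l + a l * b k) / 2 := by
    simp only [add_div, Finset.sum_add_distrib]
    rw [Finset.sum_comm (f := fun k l => a l * b k / 2), Finset.sum_mul_sum,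
      ← Finset.sum_add_distrib]
    refine Finset.sum_congr rfl fun k _ => ?_
    rw [← Finset.sum_add_distrib]
    exact Finset.sum_congr rfl fun l _ => by ring
  rw [e3, e4]
  refine Finset.sum_le_sum fun k hk => Finset.sum_le_sum fun l hl => ?_
  have h1 := hg.ip_cs (A l) (A k) x
  have h2 : (t k * t l * ip g (A l) (A k) x) ^ 2 ≤ (a k * b k) * (a l * b l) := by
    calc (t k * t l * ip g (A l) (A k) x) ^ 2
        = t k ^ 2 * t l ^ 2 * ip g (A l) (A k) x ^ 2 := by ring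
      _ ≤ t k ^ 2 * t l ^ 2 * (ip g (A l) (A l) x * ip g (A k) (A k) x) := by gcongr
      _ = (t k ^ 2 * ip g (A k) (A k) x) * (t l ^ 2 * ip g (A l) (A l) x) := by ring
      _ ≤ _ := mul_le_mul (hab k hk) (hab l hl)
          (mul_nonneg (sq_nonneg _) (hg.ip_nonneg _ _)) (mul_nonneg (ha k hk) (hb k hk))
  refine (abs_le_of_sq_le_sq' (h2.trans ?_) ?_).2
  · nlinarith [sq_nonneg (a k * b l - a l * b k)]
  · have := mul_nonneg (ha k hk) (hb l hl)
    have := mul_nonneg (ha l hl) (hb k hk)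
    linarith

/-- `du = dv + dw` gives `|du|² ≤ 2 |dv|² + 2 |dw|²` -/
theorem ip_add_le (hg : Met g) {u v w : X → ℝ} {s t : ℝ}
    (h : ∀ i, pd i u x = s * pd i v x + t * pd i w x) :
    ip g u u x ≤ 2 * (s ^ 2 * ip g v v x) + 2 * (t ^ 2 * ip g w w x) := by
  have h1 := iv_sq hg (a := df u) (b := df v) (c := df w) h
  have h2 := iv_nonneg hg (fun i y => s * pd i v y + (-t) * pd i w y) x
  rw [iv_sq hg (b := df v) (c := df w) fun _ => rfl] at h2
  simp only [iv_df] at h1 h2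
  nlinarith

theorem pd_sq {f : X → ℝ} (hf : DAt f x) (i : Fin n) :
    pd i (fun y => f y ^ 2) x = 2 * f x * pd i f x := by
  rw [pd_pow hf]; simp

theorem pd_sqrt {f : X → ℝ} (hf : DAt f x) (h0 : f x ≠ 0) (i : Fin n) :
    pd i (fun y => √(f y)) x = 1 / (2 * √(f x)) * pd i f x :=
  pd_comp (Real.hasDerivAt_sqrt h0) hf i

/-- **merging**: `f² = ∑ A k ²` near `x` and `f x ≠ 0` give `|df|² ≤ ∑ |dA k|²` -/
theorem ip_le_of_sq (hg : Met g) {ι : Type*} (s : Finset ι) {f : X → ℝ} {A : ι → X → ℝ}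
    (hf : DAt f x) (hA : ∀ k ∈ s, DAt (A k) x) (h0 : f x ≠ 0)
    (h : ∀ᶠ y in 𝓝 x, f y ^ 2 = ∑ k ∈ s, A k y ^ 2) :
    ip g f f x ≤ ∑ k ∈ s, ip g (A k) (A k) x := by
  have h1 : ∀ i, f x * pd i f x = ∑ k ∈ s, A k x * pd i (A k) x := fun i => by
    have e := pd_congr (f := fun y => f y ^ 2) (h := fun y => ∑ k ∈ s, A k y ^ 2) h i
    rw [pd_sq hf, pd_sum s fun k hk => (hA k hk).pow 2,
      Finset.sum_congr rfl fun k hk => pd_sq (hA k hk) i] at e
    simp only [mul_assoc, ← Finset.mul_sum] at e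
    linarith
  have h2 := ip_sum_le hg s h1 (a := fun k => A k x ^ 2) (b := fun k => ip g (A k) (A k) x)
    (fun _ _ => sq_nonneg _) (fun _ _ => hg.ip_nonneg _ _) fun _ _ => le_rfl
  rw [← h.self_of_nhds] at h2
  exact le_of_mul_le_mul_left h2 (by positivity)

/-- (R3) `|d √(a² + b²)|² ≤ |da|² + |db|²` -/
theorem ip_sqrt_add (hg : Met g) {a b : X → ℝ} (ha : DAt a x) (hb : DAt b x)
    (h0 : 0 < a x ^ 2 + b x ^ 2) :
    ip g (fun y => √(a y ^ 2 + b y ^ 2)) (fun y => √(a y ^ 2 + b y ^ 2)) x ≤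
      ip g a a x + ip g b b x := by
  have := ip_le_of_sq hg (Finset.univ : Finset Bool) (A := fun k => if k then a else b)
    (((ha.pow 2).add (hb.pow 2)).sqrt h0.ne') (fun k _ => by cases k <;> simpa)
    (Real.sqrt_pos.2 h0).ne' (Eventually.of_forall fun y => by
      rw [Real.sq_sqrt (by positivity)]; simp)
  simpa using this

theorem ip_sqrt {f : X → ℝ} (hf : DAt f x) (h0 : 0 < f x) :
    ip g (fun y => √(f y)) (fun y => √(f y)) x = ip g f f x / (4 * f x) := by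
  rw [ip_of_pd (pd_sqrt hf h0.ne') (pd_sqrt hf h0.ne')]
  have h1 := Real.sqrt_pos.2 h0
  field_simp
  rw [Real.sq_sqrt h0.le]; ring

/-! ### energies -/

theorem En_nonneg (hg : Met g) (p : J → X → ℝ) (x : X) : 0 ≤ En g p x :=
  Finset.sum_nonneg fun _ _ => hg.ip_nonneg _ _

theorem ip_anti {g' : Fld n X} (h : Up g g') (hg : Met g) (hg' : Met g') (u : X → ℝ) (x : X) :
    ip g' u u x ≤ ip g u u x := inv_anti (hg.pos x) (hg'.pos x) (h x) fun i => pd i u x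

theorem En_anti {g' : Fld n X} (h : Up g g') (hg : Met g) (hg' : Met g') (p : J → X → ℝ) (x : X) :
    En g' p x ≤ En g p x := Finset.sum_le_sum fun _ _ => ip_anti h hg hg' _ x

theorem sm_En (hg : Met g) {p : J → X → ℝ} (hp : ∀ j, Smooth (p j)) : Smooth (En g p) :=
  CD.sum fun j _ => hg.sm_ip (hp j) (hp j)

theorem En_elim {K : Type} [Fintype K] (a : J → X → ℝ) (b : K → X → ℝ) :
    En g (Sum.elim a b) x = En g a x + En g b x := by
  simp [En, Fintype.sum_sum_type]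

/-- the sum of the squares -/
def rr (w : J → X → ℝ) (y : X) : ℝ := ∑ j, w j y ^ 2

theorem rr_nonneg (w : J → X → ℝ) (y : X) : 0 ≤ rr w y :=
  Finset.sum_nonneg fun _ _ => sq_nonneg _

theorem rr_pos {w : J → X → ℝ} {y : X} {j : J} (h : w j y ≠ 0) : 0 < rr w y :=
  Finset.sum_pos' (fun _ _ => sq_nonneg _) ⟨j, Finset.mem_univ _, by positivity⟩

theorem sq_le_rr (w : J → X → ℝ) (j : J) (y : X) : w j y ^ 2 ≤ rr w y :=
  Finset.single_le_sum (f := fun j => w j y ^ 2) (fun _ _ => sq_nonneg _) (Finset.mem_univ j)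

theorem dAt_rr {w : J → X → ℝ} (hw : ∀ j, DAt (w j) x) : DAt (rr w) x :=
  DAt.fun_sum fun j _ => (hw j).pow 2

theorem sm_rr {w : J → X → ℝ} (hw : ∀ j, Smooth (w j)) : Smooth (rr w) :=
  CD.sum fun j _ => CD.pow (hw j) 2

theorem pd_rr {w : J → X → ℝ} (hw : ∀ j, DAt (w j) x) (i : Fin n) :
    pd i (rr w) x = ∑ j, 2 * w j x * pd i (w j) x := by
  unfold rr
  rw [pd_sum _ fun j _ => (hw j).pow 2]
  exact Finset.sum_congr rfl fun j _ => pd_sq (hw j) i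

theorem ip_rr {w : J → X → ℝ} (hw : ∀ j, DAt (w j) x) (u : X → ℝ) :
    ip g (rr w) u x = ∑ j, 2 * w j x * ip g (w j) u x := ip_sum_left _ (pd_rr hw) u

/-- `|dr|² ≤ 4 r E(w)` -/
theorem ip_rr_le (hg : Met g) {w : J → X → ℝ} (hw : ∀ j, DAt (w j) x) :
    ip g (rr w) (rr w) x ≤ 4 * rr w x * En g w x := by
  have := ip_sum_le hg Finset.univ (c := 1) (u := rr w) (A := w) (t := fun j => 2 * w j x)
    (a := fun j => 4 * w j x ^ 2) (b := fun j => ip g (w j) (w j) x)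
    (fun i => by rw [one_mul, pd_rr hw]) (fun _ _ => by positivity)
    (fun _ _ => hg.ip_nonneg _ _) fun _ _ => le_of_eq (by ring)
  rw [← Finset.mul_sum] at this
  simpa [rr, En] using this

/-- the energy of a multiple of a family -/
theorem En_mul (hg : Met g) {h : X → ℝ} {w : J → X → ℝ} (hh : DAt h x) (hw : ∀ j, DAt (w j) x) :
    En g (fun j y => h y * w j y) x =
      h x ^ 2 * En g w x + h x * ip g (rr w) h x + rr w x * ip g h h x := by
  rw [ip_rr hw, En, En, rr, Finset.mul_sum, Finset.mul_sum, Finset.sum_mul,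
    ← Finset.sum_add_distrib, ← Finset.sum_add_distrib]
  refine Finset.sum_congr rfl fun j _ => ?_
  rw [ip_mul_left hh (hw j), ip_mul_right hh (hw j), ip_mul_right hh (hw j), hg.ip_sy h (w j)]
  ring

theorem En_const_mul (c : ℝ) (w : J → X → ℝ) :
    En g (fun j y => c * w j y) x = c ^ 2 * En g w x := by
  rw [En, En, Finset.mul_sum]
  exact Finset.sum_congr rfl fun j _ => by
    rw [ip_of_pd (pd_const_mul c) (pd_const_mul c)]; ring

/-- the energy of a multiple of a unit family -/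
theorem En_mul_unit (hg : Met g) {h : X → ℝ} {p : J → X → ℝ} (hh : DAt h x)
    (hp : ∀ j, DAt (p j) x) (h1 : ∀ y, ∑ j, p j y ^ 2 = 1) :
    En g (fun j y => h y * p j y) x = h x ^ 2 * En g p x + ip g h h x := by
  have e : rr p = fun _ => 1 := funext h1
  rw [En_mul hg hh hp, e, ip_const_left]; ring

/-- the union of two weighted unit families -/
theorem En_union (hg : Met g) {K : Type} [Fintype K] {a b : X → ℝ} {z : J → X → ℝ}
    {p : K → X → ℝ} (ha : DAt a x) (hb : DAt b x) (hz : ∀ j, DAt (z j) x) (hp : ∀ k, DAt (p k) x)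
    (z1 : ∀ y, ∑ j, z j y ^ 2 = 1) (p1 : ∀ y, ∑ k, p k y ^ 2 = 1) :
    En g (Sum.elim (fun j y => a y * z j y) fun k y => b y * p k y) x =
      a x ^ 2 * En g z x + b x ^ 2 * En g p x + ip g a a x + ip g b b x := by
  rw [En_elim, En_mul_unit hg ha hz z1, En_mul_unit hg hb hp p1]; ring

/-! ### renormalisation -/

/-- the normalised family -/
def nrm (w : J → X → ℝ) (j : J) (y : X) : ℝ := w j y / √(rr w y)

/-- the logarithm of the radius -/
def lr (w : J → X → ℝ) (y : X) : ℝ := Real.log (rr w y) / 2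

theorem nrm_sq (w : J → X → ℝ) (j : J) (y : X) : nrm w j y ^ 2 = w j y ^ 2 / rr w y := by
  rw [nrm, div_pow, Real.sq_sqrt (rr_nonneg w y)]

theorem nrm_one {w : J → X → ℝ} {y : X} (h : 0 < rr w y) : ∑ j, nrm w j y ^ 2 = 1 := by
  simp only [nrm_sq, ← Finset.sum_div]
  exact div_self h.ne'

theorem nrm_pos {w : J → X → ℝ} {j : J} {y : X} (h : 0 < w j y) : 0 < nrm w j y :=
  div_pos h (Real.sqrt_pos.2 (rr_pos h.ne'))

theorem nrm_pot (w : J → X → ℝ) (V : J → ℝ) (y : X) :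
    ∑ j, V j * nrm w j y ^ 2 = (∑ j, V j * w j y ^ 2) / rr w y := by
  simp only [nrm_sq, Finset.sum_div, mul_div_assoc]

theorem dAt_nrm {w : J → X → ℝ} (hw : ∀ j, DAt (w j) x) (h : 0 < rr w x) (j : J) :
    DAt (nrm w j) x := (hw j).div ((dAt_rr hw).sqrt h.ne') (Real.sqrt_pos.2 h).ne'

theorem sm_nrm {w : J → X → ℝ} (hw : ∀ j, Smooth (w j)) (h : ∀ y, 0 < rr w y) (j : J) :
    Smooth (nrm w j) :=
  CD.div (hw j) (CD.sqrt (sm_rr hw) fun y => (h y).ne') fun y => (Real.sqrt_pos.2 (h y)).ne'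

theorem sm_lr {w : J → X → ℝ} (hw : ∀ j, Smooth (w j)) (h : ∀ y, 0 < rr w y) : Smooth (lr w) :=
  CD.div_const (CD.log (sm_rr hw) fun y => (h y).ne') 2

theorem pd_lr {w : J → X → ℝ} (hw : ∀ j, DAt (w j) x) (h : 0 < rr w x) (i : Fin n) :
    pd i (lr w) x = 1 / (2 * rr w x) * pd i (rr w) x := by
  refine pd_comp (φ := fun t => Real.log t / 2) ?_ (dAt_rr hw) i
  exact ((Real.hasDerivAt_log h.ne').div_const 2).congr_deriv (by ring)

theorem pd_lr' {w : J → X → ℝ} (hw : ∀ j, DAt (w j) x) (h : 0 < rr w x) (i : Fin n) :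
    pd i (lr w) x = ∑ j, w j x / rr w x * pd i (w j) x := by
  rw [pd_lr hw h, pd_rr hw, Finset.mul_sum]
  exact Finset.sum_congr rfl fun j _ => by field_simp

theorem ip_lr {w : J → X → ℝ} (hw : ∀ j, DAt (w j) x) (h : 0 < rr w x) :
    ip g (lr w) (lr w) x = ip g (rr w) (rr w) x / (4 * rr w x ^ 2) := by
  rw [ip_of_pd (pd_lr hw h) (pd_lr hw h)]; field_simp; ring

/-- (R1) `E(w / ρ) = E(w) / ρ² - |d log ρ|²` -/
theorem En_nrm (hg : Met g) {w : J → X → ℝ} (hw : ∀ j, DAt (w j) x) (h : 0 < rr w x) :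
    En g (nrm w) x = En g w x / rr w x - ip g (lr w) (lr w) x := by
  have hs := Real.sqrt_pos.2 h
  have e : nrm w = fun j y => (√(rr w y))⁻¹ * w j y := by
    funext j y; rw [nrm, div_eq_inv_mul]
  have hd := (dAt_rr hw).sqrt h.ne'
  have h1 : ∀ i, pd i (fun y => (√(rr w y))⁻¹) x =
      -(1 / (2 * √(rr w x) * rr w x)) * pd i (rr w) x := fun i => by
    rw [pd_inv hd hs.ne', pd_sqrt (dAt_rr hw) h.ne', Real.sq_sqrt h.le]; field_simp
  rw [e, En_mul hg (hd.inv hs.ne') hw, ip_of_pd h1 h1, ip_lr hw h,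
    ip_of_pd (u' := rr w) (s := 1) (fun _ => (one_mul _).symm) h1]
  obtain ⟨s, hs', e⟩ : ∃ s, 0 < s ∧ rr w x = s ^ 2 := ⟨_, hs, (Real.sq_sqrt h.le).symm⟩
  rw [e, Real.sqrt_sq hs'.le]
  field_simp
  ring

theorem En_nrm_le (hg : Met g) {w : J → X → ℝ} (hw : ∀ j, DAt (w j) x) (h : 0 < rr w x) :
    En g (nrm w) x ≤ En g w x / rr w x := by
  rw [En_nrm hg hw h]
  linarith [hg.ip_nonneg (lr w) x]

theorem ip_lr_le (hg : Met g) {w : J → X → ℝ} (hw : ∀ j, DAt (w j) x) (h : 0 < rr w x) :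
    ip g (lr w) (lr w) x ≤ En g w x / rr w x := by
  linarith [En_nrm hg hw h, En_nonneg hg (nrm w) x]

/-! ### merging and mixing -/

/-- the merged family -/
def mrg (a b : J → X → ℝ) (j : J) (y : X) : ℝ := √(a j y ^ 2 + b j y ^ 2)

omit [Fintype J] [Mf0 n X] in
theorem mrg_sq (a b : J → X → ℝ) (j : J) (y : X) : mrg a b j y ^ 2 = a j y ^ 2 + b j y ^ 2 :=
  Real.sq_sqrt (by positivity)

theorem rr_mrg (a b : J → X → ℝ) (y : X) : rr (mrg a b) y = rr a y + rr b y := by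
  simp only [rr, mrg_sq, Finset.sum_add_distrib]

theorem En_mrg (hg : Met g) {a b : J → X → ℝ} (ha : ∀ j, DAt (a j) x) (hb : ∀ j, DAt (b j) x)
    (h0 : ∀ j, 0 < a j x ^ 2 + b j x ^ 2) : En g (mrg a b) x ≤ En g a x + En g b x := by
  rw [En, En, En, ← Finset.sum_add_distrib]
  exact Finset.sum_le_sum fun j _ => ip_sqrt_add hg (ha j) (hb j) (h0 j)

/-- the normalised merged family -/
def cmb (a b : J → X → ℝ) : J → X → ℝ := nrm (mrg a b)

theorem cmb_sq (a b : J → X → ℝ) (j : J) (y : X) :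
    cmb a b j y ^ 2 = (a j y ^ 2 + b j y ^ 2) / (rr a y + rr b y) := by
  rw [cmb, nrm_sq, mrg_sq, rr_mrg]

theorem cmb_pos {a b : J → X → ℝ} {j : J} {y : X} (h : 0 < a j y ^ 2 + b j y ^ 2) :
    0 < cmb a b j y := nrm_pos (Real.sqrt_pos.2 h)

theorem cmb_one {a b : J → X → ℝ} {y : X} (h : 0 < rr a y + rr b y) :
    ∑ j, cmb a b j y ^ 2 = 1 := nrm_one (by rwa [rr_mrg])

theorem sm_cmb [Nonempty J] {a b : J → X → ℝ} (ha : ∀ j, Smooth (a j)) (hb : ∀ j, Smooth (b j))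
    (h0 : ∀ j y, 0 < a j y ^ 2 + b j y ^ 2) (j : J) : Smooth (cmb a b j) :=
  sm_nrm (fun j => CD.sqrt (CD.add (CD.pow (ha j) 2) (CD.pow (hb j) 2)) fun y => (h0 j y).ne')
    (fun y => rr_pos (j := j) (Real.sqrt_pos.2 (h0 j y)).ne') j

theorem En_cmb (hg : Met g) {a b : J → X → ℝ} (ha : ∀ j, DAt (a j) x) (hb : ∀ j, DAt (b j) x)
    (h0 : ∀ j, 0 < a j x ^ 2 + b j x ^ 2) (h : 0 < rr a x + rr b x) :
    En g (cmb a b) x ≤ (En g a x + En g b x) / (rr a x + rr b x) := by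
  refine (En_nrm_le hg (w := mrg a b) (fun j => (((ha j).pow 2).add ((hb j).pow 2)).sqrt (h0 j).ne')
    (by rwa [rr_mrg])).trans ?_
  rw [rr_mrg]
  exact div_le_div_of_nonneg_right (En_mrg hg ha hb h0) h.le

/-- the mixture `√((1 - θ) z² + θ p²)`, `θ = a / (1 + a)` -/
def mix (z p : J → X → ℝ) (a : X → ℝ) : J → X → ℝ := cmb z fun j y => √(a y) * p j y

section mix

variable {z p : J → X → ℝ} {a : X → ℝ}

theorem rr_mul (h : X → ℝ) (p : J → X → ℝ) (y : X) :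
    rr (fun j y => h y * p j y) y = h y ^ 2 * rr p y := by
  simp only [rr, mul_pow, Finset.mul_sum]

theorem mix_sq (z1 : ∀ y, ∑ j, z j y ^ 2 = 1) (p1 : ∀ y, ∑ j, p j y ^ 2 = 1) {y : X}
    (h : 0 ≤ a y) (j : J) :
    mix z p a j y ^ 2 = (1 - a y / (1 + a y)) * z j y ^ 2 + a y / (1 + a y) * p j y ^ 2 := by
  rw [mix, cmb_sq, rr_mul, mul_pow, Real.sq_sqrt h, rr, rr, z1, p1]
  field_simp
  ring

theorem mix_pos {j : J} {y : X} (h : z j y ≠ 0) : 0 < mix z p a j y := cmb_pos (by positivity)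

theorem mix_one (z1 : ∀ y, ∑ j, z j y ^ 2 = 1) (y : X) : ∑ j, mix z p a j y ^ 2 = 1 :=
  cmb_one (by rw [rr, z1]; linarith [rr_nonneg (fun j y => √(a y) * p j y) y])

theorem mix_pot (z1 : ∀ y, ∑ j, z j y ^ 2 = 1) (p1 : ∀ y, ∑ j, p j y ^ 2 = 1) {y : X}
    (h : 0 ≤ a y) (V : J → ℝ) : ∑ j, V j * mix z p a j y ^ 2 =
      (1 - a y / (1 + a y)) * ∑ j, V j * z j y ^ 2 + a y / (1 + a y) * ∑ j, V j * p j y ^ 2 := by
  simp only [mix_sq z1 p1 h, Finset.mul_sum, ← Finset.sum_add_distrib]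
  exact Finset.sum_congr rfl fun _ _ => by ring

theorem sm_mix (hz : ∀ j, Smooth (z j)) (hp : ∀ j, Smooth (p j)) (ha : Smooth a)
    (a0 : ∀ y, 0 < a y) (z0 : ∀ j y, z j y ≠ 0) (j : J) : Smooth (mix z p a j) :=
  have : Nonempty J := ⟨j⟩
  sm_cmb hz (fun j => CD.mul (CD.sqrt ha fun y => (a0 y).ne') (hp j))
    (fun j y => by have := z0 j y; positivity) j

/-- (R2), sharp form -/
theorem En_mix' (hg : Met g) (hz : ∀ j, DAt (z j) x) (hp : ∀ j, DAt (p j) x) (ha : DAt a x)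
    (z1 : ∀ y, ∑ j, z j y ^ 2 = 1) (p1 : ∀ y, ∑ j, p j y ^ 2 = 1) (a0 : 0 < a x)
    (z0 : ∀ j, z j x ≠ 0) : En g (mix z p a) x ≤
      (En g z x + a x * En g p x + ip g a a x / (4 * a x)) / (1 + a x) := by
  have hs := ha.sqrt a0.ne'
  have e : rr z x + rr (fun j y => √(a y) * p j y) x = 1 + a x := by
    rw [rr_mul, Real.sq_sqrt a0.le, rr, rr, z1, p1, mul_one]
  have := En_cmb hg hz (fun j => hs.mul (hp j)) (fun j => by have := z0 j; positivity)
    (by rw [e]; positivity)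
  rwa [e, En_mul_unit hg hs hp p1, Real.sq_sqrt a0.le, ip_sqrt ha a0, ← add_assoc] at this

/-- (R2) -/
theorem En_mix (hg : Met g) (hz : ∀ j, DAt (z j) x) (hp : ∀ j, DAt (p j) x) (ha : DAt a x)
    (z1 : ∀ y, ∑ j, z j y ^ 2 = 1) (p1 : ∀ y, ∑ j, p j y ^ 2 = 1) (a0 : 0 < a x)
    (z0 : ∀ j, z j x ≠ 0) : En g (mix z p a) x ≤ (1 - a x / (1 + a x)) * En g z x +
      a x / (1 + a x) * En g p x + ip g a a x / (4 * a x) := by
  refine (En_mix' hg hz hp ha z1 p1 a0 z0).trans ?_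
  have h1 : 0 ≤ ip g a a x / (4 * a x) := div_nonneg (hg.ip_nonneg _ _) (by positivity)
  have h2 : ip g a a x / (4 * a x) / (1 + a x) ≤ ip g a a x / (4 * a x) :=
    div_le_self h1 (by linarith)
  have h3 : (En g z x + a x * En g p x) / (1 + a x) =
      (1 - a x / (1 + a x)) * En g z x + a x / (1 + a x) * En g p x := by field_simp; ring
  rw [add_div, h3]
  linarith

/-- the union form of the mixture -/
def umx {K : Type} (z : J → X → ℝ) (p : K → X → ℝ) (a : X → ℝ) : J ⊕ K → X → ℝ :=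
  Sum.elim (fun j y => (√(1 + a y))⁻¹ * z j y) fun k y => √(a y) / √(1 + a y) * p k y

omit [Fintype J] in
theorem sm_umx {K : Type} {p : K → X → ℝ} (hz : ∀ j, Smooth (z j)) (hp : ∀ k, Smooth (p k))
    (ha : Smooth a) (a0 : ∀ y, 0 < a y) : ∀ j, Smooth (umx z p a j) := by
  have h1 : Smooth fun y => √(1 + a y) :=
    CD.sqrt (CD.add cd_const ha) fun y => by have := a0 y; positivity
  have h2 : ∀ y, √(1 + a y) ≠ 0 := fun y => by have := a0 y; positivity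
  rintro (j | k)
  · exact CD.mul (CD.inv h1 h2) (hz j)
  · exact CD.mul (CD.div (CD.sqrt ha fun y => (a0 y).ne') h1 h2) (hp k)

omit [Fintype J] [Mf0 n X] in
theorem umx_inl {K : Type} {p : K → X → ℝ} {y : X} (h : 0 ≤ a y) (j : J) :
    umx z p a (Sum.inl j) y ^ 2 = (1 - a y / (1 + a y)) * z j y ^ 2 := by
  simp only [umx, Sum.elim_inl]
  rw [mul_pow, inv_pow, Real.sq_sqrt (by positivity)]
  field_simp
  ring

omit [Fintype J] [Mf0 n X] in
theorem umx_inr {K : Type} {p : K → X → ℝ} {y : X} (h : 0 ≤ a y) (k : K) :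
    umx z p a (Sum.inr k) y ^ 2 = a y / (1 + a y) * p k y ^ 2 := by
  simp only [umx, Sum.elim_inr]
  rw [mul_pow, div_pow, Real.sq_sqrt (by positivity), Real.sq_sqrt (by positivity)]

theorem umx_one {K : Type} [Fintype K] {p : K → X → ℝ} (z1 : ∀ y, ∑ j, z j y ^ 2 = 1)
    (p1 : ∀ y, ∑ k, p k y ^ 2 = 1) {y : X} (h : 0 ≤ a y) : ∑ j, umx z p a j y ^ 2 = 1 := by
  simp only [Fintype.sum_sum_type, umx_inl h, umx_inr h, ← Finset.mul_sum, z1, p1]
  ring

/-- (R2), union form, with equality -/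
theorem En_umx (hg : Met g) {K : Type} [Fintype K] {p : K → X → ℝ} (hz : ∀ j, DAt (z j) x)
    (hp : ∀ k, DAt (p k) x) (ha : DAt a x) (z1 : ∀ y, ∑ j, z j y ^ 2 = 1)
    (p1 : ∀ y, ∑ k, p k y ^ 2 = 1) (a0 : 0 < a x) : En g (umx z p a) x =
      (1 - a x / (1 + a x)) * En g z x + a x / (1 + a x) * En g p x +
        ip g a a x / (4 * a x * (1 + a x) ^ 2) := by
  have h0 : 0 < 1 + a x := by positivity
  have hs := Real.sqrt_pos.2 h0
  have ht := Real.sqrt_pos.2 a0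
  have d1 := (ha.const_add 1).sqrt h0.ne'
  have d2 := ha.sqrt a0.ne'
  have e1 : ∀ i, pd i (fun y => (√(1 + a y))⁻¹) x =
      -(1 / (2 * √(1 + a x) ^ 3)) * pd i a x := fun i => by
    rw [pd_inv d1 hs.ne', pd_sqrt (ha.const_add 1) h0.ne', pd_const_add]; field_simp
  have e2 : ∀ i, pd i (fun y => √(a y) / √(1 + a y)) x =
      (√(1 + a x) ^ 2 - √(a x) ^ 2) / (2 * √(a x) * √(1 + a x) ^ 3) * pd i a x := fun i => by
    rw [pd_div d2 d1 hs.ne', pd_sqrt (ha.const_add 1) h0.ne', pd_sqrt ha a0.ne', pd_const_add]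
    field_simp
  rw [umx, En_union hg (d1.inv hs.ne') (d2.div d1 hs.ne') hz hp z1 p1, ip_of_pd e1 e1,
    ip_of_pd e2 e2]
  have q1 := Real.sq_sqrt h0.le
  have q2 := Real.sq_sqrt a0.le
  have q3 : √(1 + a x) ^ 3 * √(1 + a x) ^ 3 = (1 + a x) ^ 3 := by rw [← q1]; ring_nf; simp [q1]
  generalize √(1 + a x) = s at *
  generalize √(a x) = t at *
  rw [← q1, ← q2]
  have q4 : s ^ 2 - t ^ 2 = 1 := by rw [q1, q2]; ring
  rw [q4]
  have q5 : s ^ 2 = 1 + t ^ 2 := by linarith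
  field_simp
  rw [show s ^ 4 = (s ^ 2) ^ 2 by ring, q5]
  ring

end mix

/-! ### rotation of two unit families -/

/-- the union `(cos β z, sin β p)` -/
theorem En_rot (hg : Met g) {K : Type} [Fintype K] {β : X → ℝ} {z : J → X → ℝ} {p : K → X → ℝ}
    (hβ : DAt β x) (hz : ∀ j, DAt (z j) x) (hp : ∀ k, DAt (p k) x)
    (z1 : ∀ y, ∑ j, z j y ^ 2 = 1) (p1 : ∀ y, ∑ k, p k y ^ 2 = 1) :
    En g (Sum.elim (fun j y => Real.cos (β y) * z j y) fun k y => Real.sin (β y) * p k y) x =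
      Real.cos (β x) ^ 2 * En g z x + Real.sin (β x) ^ 2 * En g p x + ip g β β x := by
  rw [En_union hg (Real.differentiableAt_cos.compM hβ) (Real.differentiableAt_sin.compM hβ)
    hz hp z1 p1, ip_comp (Real.hasDerivAt_cos _) (Real.hasDerivAt_cos _) hβ hβ,
    ip_comp (Real.hasDerivAt_sin _) (Real.hasDerivAt_sin _) hβ hβ]
  linear_combination ip g β β x * Real.sin_sq_add_cos_sq (β x)

/-! ### potentials -/

/-- (R4) the slope of `V₁ = ∑ V w²` -/
theorem ip_pot (hg : Met g) {V w : J → X → ℝ} {θ Λ : ℝ} (hV : ∀ j, DAt (V j) x)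
    (hw : ∀ j, DAt (w j) x) (V0 : ∀ j, 0 ≤ V j x) (hθ : 0 ≤ θ) (hΛ : 0 ≤ Λ)
    (hgr : ∀ j, ip g (V j) (V j) x ≤ V j x * (θ * V j x ^ 2 + Λ)) :
    ip g (fun y => ∑ j, V j y * w j y ^ 2) (fun y => ∑ j, V j y * w j y ^ 2) x ≤
      (∑ j, V j x * w j x ^ 2) * (2 * θ * ∑ j, (V j x * w j x) ^ 2 + 2 * Λ * rr w x +
        8 * ∑ j, V j x * ip g (w j) (w j) x) := by
  have h := ip_sum_le (x := x) hg (Finset.univ : Finset (J ⊕ J)) (c := 1)
    (u := fun y => ∑ j, V j y * w j y ^ 2) (A := Sum.elim V w)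
    (t := Sum.elim (fun j => w j x ^ 2) fun j => 2 * V j x * w j x)
    (a := Sum.elim (fun j => V j x * w j x ^ 2) fun j => V j x * w j x ^ 2)
    (b := Sum.elim (fun j => w j x ^ 2 * (θ * V j x ^ 2 + Λ))
      fun j => 4 * (V j x * ip g (w j) (w j) x)) (fun i => ?_) ?_ ?_ ?_
  · simp only [Fintype.sum_sum_type, Sum.elim_inl, Sum.elim_inr] at h
    have e : ∑ j, w j x ^ 2 * (θ * V j x ^ 2 + Λ) = θ * ∑ j, (V j x * w j x) ^ 2 + Λ * rr w x := by
      rw [rr, Finset.mul_sum, Finset.mul_sum, ← Finset.sum_add_distrib]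
      exact Finset.sum_congr rfl fun _ _ => by ring
    rw [e, ← Finset.mul_sum] at h
    linarith
  · rw [one_mul, pd_sum _ fun j _ => (hV j).mul ((hw j).pow 2), Fintype.sum_sum_type,
      ← Finset.sum_add_distrib]
    exact Finset.sum_congr rfl fun j _ => by
      rw [pd_mul (hV j) ((hw j).pow 2), pd_sq (hw j)]; simp only [Sum.elim_inl, Sum.elim_inr]; ring
  · rintro (j | j) _ <;> exact mul_nonneg (V0 j) (sq_nonneg _)
  · rintro (j | j) _
    · simp only [Sum.elim_inl]; positivity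
    · exact mul_nonneg (by norm_num) (mul_nonneg (V0 j) (hg.ip_nonneg _ _))
  · rintro (j | j) _
    · simp only [Sum.elim_inl]
      nlinarith [mul_le_mul_of_nonneg_left (hgr j) (sq_nonneg (w j x ^ 2))]
    · exact le_of_eq (by simp only [Sum.elim_inr]; ring)

/-- the cost of the mixing weight `a = (l / α) (U + e)`: `α |da|² / (4 a) ≤ l T / 4` if
`|dU|² ≤ U T` -/
theorem mix_cost {U : X → ℝ} {l α e T : ℝ} (hl : 0 < l) (hα : 0 < α) (he : 0 < e) (U0 : 0 ≤ U x)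
    (hT : 0 ≤ T) (h : ip g U U x ≤ U x * T) :
    α * (ip g (fun y => l * (U y + e) / α) (fun y => l * (U y + e) / α) x /
      (4 * (l * (U x + e) / α))) ≤ l * T / 4 := by
  have e1 : ∀ i, pd i (fun y => l * (U y + e) / α) x = l / α * pd i U x := fun i => by
    rw [← pd_add_const (f := U) e i, ← pd_const_mul]
    exact pd_congr (Eventually.of_forall fun y => by ring) i
  have h1 : 0 < U x + e := by positivity
  rw [ip_of_pd e1 e1, show α * (l / α * (l / α) * ip g U U x / (4 * (l * (U x + e) / α))) =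
    l * (ip g U U x / (U x + e)) / 4 by field_simp]
  gcongr
  rw [div_le_iff₀ h1]
  nlinarith

/-- the derivative along the normal of a graph -/
theorem dn_sq_le (hg : Met g) (w u : X → ℝ) (x : X) :
    dn g w u x ^ 2 ≤ (1 - (ww g 1 w x)⁻¹ ^ 2) * ip g u u x := by
  have h0 := w_pos hg w x
  have h1 := w_sq hg w x
  have e : 1 - (ww g 1 w x)⁻¹ ^ 2 = ip g w w x / ww g 1 w x ^ 2 := by field_simp; linarith
  rw [dn, div_pow, e, div_mul_eq_mul_div]
  exact div_le_div_of_nonneg_right (hg.ip_cs _ _ _) (sq_nonneg _)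

/-- (R5), one term -/
theorem two_mul_le {w N S V θ Λ t : ℝ} (hw : 0 ≤ w) (hS : 0 ≤ S) (hV : 0 ≤ V) (hθ : 0 ≤ θ)
    (hΛ : 0 ≤ Λ) (ht : 0 < t) (h : N ^ 2 ≤ S * (V * (θ ^ 2 * V ^ 2 + Λ))) :
    2 * (w * |N|) ≤ θ * ((V * w) ^ 2 + V * S) + (t * S + Λ * (V * w ^ 2) / t) := by
  obtain ⟨a, ha, rfl⟩ : ∃ a, 0 ≤ a ∧ S = a ^ 2 := ⟨_, Real.sqrt_nonneg S, (Real.sq_sqrt hS).symm⟩
  obtain ⟨b, hb, rfl⟩ : ∃ a, 0 ≤ a ∧ V = a ^ 2 := ⟨_, Real.sqrt_nonneg V, (Real.sq_sqrt hV).symm⟩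
  obtain ⟨c, hc, rfl⟩ : ∃ a, 0 ≤ a ∧ Λ = a ^ 2 := ⟨_, Real.sqrt_nonneg Λ, (Real.sq_sqrt hΛ).symm⟩
  have h1 : |N| ≤ a * b * (θ * b ^ 2 + c) := by
    refine abs_le.2 (abs_le_of_sq_le_sq' (h.trans ?_) (by positivity))
    have : 0 ≤ a ^ 2 * b ^ 2 * (θ * b ^ 2 * c) := by positivity
    nlinarith
  have h2 : 2 * (w * (a * b * c)) ≤ t * a ^ 2 + c ^ 2 * (b ^ 2 * w ^ 2) / t := by
    rw [← mul_le_mul_iff_right₀ ht, mul_add, mul_div_cancel₀ _ ht.ne']
    nlinarith [sq_nonneg (t * a - c * b * w)]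
  have h3 : 2 * (w * (a * b * b ^ 2)) ≤ (b ^ 2 * w) ^ 2 + b ^ 2 * a ^ 2 := by
    nlinarith [sq_nonneg (b ^ 2 * w - a * b)]
  nlinarith [mul_le_mul_of_nonneg_left h1 hw, mul_le_mul_of_nonneg_left h3 hθ]

/-- (R5); `S j = σ j ²`, `θ = √ω`, `t` is free -/
theorem sum_dn_le {ι : Type*} (s : Finset ι) {w N S V : ι → ℝ} {θ Λ t : ℝ} (hw : ∀ j ∈ s, 0 ≤ w j)
    (hS : ∀ j ∈ s, 0 ≤ S j) (hV : ∀ j ∈ s, 0 ≤ V j) (hθ : 0 ≤ θ) (hΛ : 0 ≤ Λ) (ht : 0 < t)
    (h : ∀ j ∈ s, N j ^ 2 ≤ S j * (V j * (θ ^ 2 * V j ^ 2 + Λ))) :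
    2 * ∑ j ∈ s, w j * |N j| ≤ θ * (∑ j ∈ s, (V j * w j) ^ 2 + ∑ j ∈ s, V j * S j) +
      (t * ∑ j ∈ s, S j + Λ * (∑ j ∈ s, V j * w j ^ 2) / t) := by
  simp only [Finset.mul_sum, Finset.sum_div, ← Finset.sum_add_distrib]
  exact Finset.sum_le_sum fun j hj =>
    two_mul_le (hw j hj) (hS j hj) (hV j hj) hθ hΛ ht (h j hj)

/-- (R5) with `t = k V₁ / r`: the last term is at most `k Θ V₁ / r + Λ r / k` -/
theorem sum_dn_le' {ι : Type*} (s : Finset ι) {w N S V : ι → ℝ} {θ Λ k r : ℝ}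
    (hw : ∀ j ∈ s, 0 ≤ w j) (hS : ∀ j ∈ s, 0 ≤ S j) (hV : ∀ j ∈ s, 0 ≤ V j) (hθ : 0 ≤ θ)
    (hΛ : 0 ≤ Λ) (hk : 0 < k) (hr : 0 < r)
    (h : ∀ j ∈ s, N j ^ 2 ≤ S j * (V j * (θ ^ 2 * V j ^ 2 + Λ))) :
    2 * ∑ j ∈ s, w j * |N j| ≤ θ * (∑ j ∈ s, (V j * w j) ^ 2 + ∑ j ∈ s, V j * S j) +
      (k * ((∑ j ∈ s, S j) * ∑ j ∈ s, V j * w j ^ 2) / r + Λ * r / k) := by
  have h0 : ∀ j ∈ s, 0 ≤ V j * w j ^ 2 := fun j hj => mul_nonneg (hV j hj) (sq_nonneg _)
  rcases (Finset.sum_nonneg h0).eq_or_lt with e | e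
  · have e' := (Finset.sum_eq_zero_iff_of_nonneg h0).1 e.symm
    have h1 : ∑ j ∈ s, w j * |N j| = 0 := Finset.sum_eq_zero fun j hj => by
      rcases mul_eq_zero.1 (e' j hj) with h2 | h2
      · have := h j hj
        rw [h2] at this
        rw [show N j = 0 by simpa using this]
        simp
      · rw [pow_eq_zero_iff (two_ne_zero) |>.1 h2, zero_mul]
    have h2 : 0 ≤ ∑ j ∈ s, (V j * w j) ^ 2 := Finset.sum_nonneg fun _ _ => sq_nonneg _
    have h3 : 0 ≤ ∑ j ∈ s, V j * S j :=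
      Finset.sum_nonneg fun j hj => mul_nonneg (hV j hj) (hS j hj)
    rw [h1, ← e]
    have : 0 ≤ Λ * r / k := by positivity
    have := mul_nonneg hθ (add_nonneg h2 h3)
    simp only [mul_zero, zero_div, zero_add]
    linarith
  · refine (sum_dn_le s hw hS hV hθ hΛ (t := k * (∑ j ∈ s, V j * w j ^ 2) / r)
      (by positivity) h).trans (le_of_eq ?_)
    field_simp

/-! ### the output family and averages -/

/-- the output family `√(w² / s + φ² p²) / √(r / s + φ²)` -/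
def outf (s : ℝ) (w p : J → X → ℝ) (φ : X → ℝ) : J → X → ℝ :=
  cmb (fun j y => (√s)⁻¹ * w j y) fun j y => φ y * p j y

section out

variable {s : ℝ} {w p : J → X → ℝ} {φ : X → ℝ}

theorem out_den (hs : 0 < s) (p1 : ∀ y, ∑ j, p j y ^ 2 = 1) (y : X) :
    rr (fun j y => (√s)⁻¹ * w j y) y + rr (fun j y => φ y * p j y) y = rr w y / s + φ y ^ 2 := by
  rw [rr_mul, rr_mul, inv_pow, Real.sq_sqrt hs.le, show rr p y = 1 from p1 y]; ring

theorem outf_sq (hs : 0 < s) (p1 : ∀ y, ∑ j, p j y ^ 2 = 1) (j : J) (y : X) :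
    outf s w p φ j y ^ 2 = (w j y ^ 2 / s + φ y ^ 2 * p j y ^ 2) / (rr w y / s + φ y ^ 2) := by
  rw [outf, cmb_sq, out_den hs p1, mul_pow, mul_pow, inv_pow, Real.sq_sqrt hs.le, inv_mul_eq_div]

theorem outf_pos (hs : 0 < s) {j : J} {y : X} (h : w j y ≠ 0) : 0 < outf s w p φ j y :=
  cmb_pos (by positivity)

theorem outf_one (hs : 0 < s) (p1 : ∀ y, ∑ j, p j y ^ 2 = 1) {y : X} (h : 0 < rr w y) :
    ∑ j, outf s w p φ j y ^ 2 = 1 := cmb_one (by rw [out_den hs p1]; positivity)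

theorem sm_outf (hs : 0 < s) (hw : ∀ j, Smooth (w j)) (hp : ∀ j, Smooth (p j)) (hφ : Smooth φ)
    (w0 : ∀ j y, w j y ≠ 0) (j : J) : Smooth (outf s w p φ j) :=
  have : Nonempty J := ⟨j⟩
  sm_cmb (fun j => CD.mul cd_const (hw j)) (fun j => CD.mul hφ (hp j))
    (fun j y => by have := w0 j y; have := Real.sqrt_pos.2 hs; positivity) j

theorem outf_pot (hs : 0 < s) (p1 : ∀ y, ∑ j, p j y ^ 2 = 1) (V : J → ℝ) (y : X) :
    ∑ j, V j * outf s w p φ j y ^ 2 =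
      ((∑ j, V j * w j y ^ 2) / s + φ y ^ 2 * ∑ j, V j * p j y ^ 2) / (rr w y / s + φ y ^ 2) := by
  simp only [outf_sq hs p1, Finset.mul_sum, Finset.sum_div, ← Finset.sum_add_distrib]
  exact Finset.sum_congr rfl fun _ _ => by ring

/-- (R6), for every metric -/
theorem En_outf (hg : Met g) (hs : 0 < s) (hw : ∀ j, DAt (w j) x) (hp : ∀ j, DAt (p j) x)
    (hφ : DAt φ x) (p1 : ∀ y, ∑ j, p j y ^ 2 = 1) (w0 : ∀ j, w j x ≠ 0) (h : 0 < rr w x) :
    En g (outf s w p φ) x ≤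
      (En g w x / s + φ x ^ 2 * En g p x + ip g φ φ x) / (rr w x / s + φ x ^ 2) := by
  have := En_cmb hg (fun j => (hw j).const_mul (√s)⁻¹) (fun j => hφ.mul (hp j))
    (fun j => by have := w0 j; positivity) (by rw [out_den hs p1]; positivity)
  rwa [out_den hs p1, En_mul_unit hg hφ hp p1, En_const_mul, inv_pow, Real.sq_sqrt hs.le,
    inv_mul_eq_div, ← add_assoc] at this

/-- the slope of a function of `r / s` -/
theorem ip_rad (hg : Met g) (hs : 0 < s) (hw : ∀ j, DAt (w j) x) {ψ : ℝ → ℝ} {d : ℝ}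
    (hψ : HasDerivAt ψ d (rr w x / s)) :
    ip g (fun y => ψ (rr w y / s)) (fun y => ψ (rr w y / s)) x ≤
      4 * d ^ 2 * (rr w x / s) * (En g w x / s) := by
  have e : ∀ i, pd i (fun y => ψ (rr w y / s)) x = d / s * pd i (rr w) x := fun i =>
    pd_comp (φ := fun t => ψ (t / s))
      ((hψ.comp (rr w x) ((hasDerivAt_id _).div_const s)).congr_deriv (by ring)) (dAt_rr hw) i
  rw [ip_of_pd e e]
  refine (mul_le_mul_of_nonneg_left (ip_rr_le hg hw) (mul_self_nonneg _)).trans (le_of_eq ?_)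
  ring

/-- (R6) with `φ = ψ (r / s)`, `ψ = 1` on `t ≤ 3 / 4`, `ψ' = 0` on `1 ≤ t` -/
theorem En_outf_le (hg : Met g) (hs : 0 < s) (hw : ∀ j, DAt (w j) x) (hp : ∀ j, DAt (p j) x)
    (p1 : ∀ y, ∑ j, p j y ^ 2 = 1) (w0 : ∀ j, w j x ≠ 0) (h : 0 < rr w x) {ψ : ℝ → ℝ} {D : ℝ}
    (hψ : Differentiable ℝ ψ) (ψ0 : ∀ t, 0 ≤ ψ t ∧ ψ t ≤ 1) (ψ1 : ∀ t ≤ 3 / 4, ψ t = 1)
    (hD : ∀ t, |deriv ψ t| ≤ D) (ψ2 : ∀ t, 1 ≤ t → deriv ψ t = 0) :
    En g (outf s w p fun y => ψ (rr w y / s)) x ≤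
      (1 + 4 * D ^ 2) * En g w x / (s * max (rr w x / s) (3 / 4)) +
        4 / 3 * ψ (rr w x / s) * En g p x := by
  have hN : 0 < rr w x / s := by positivity
  have hE := div_nonneg (En_nonneg hg w x) hs.le
  have hP := En_nonneg hg p x
  have h1 := ip_rad hg hs hw (hψ (rr w x / s)).hasDerivAt
  have h2 := En_outf hg hs hw hp ((hψ _).compM ((dAt_rr hw).div_const s)) p1 w0 h
  obtain ⟨a0, a1⟩ := ψ0 (rr w x / s)
  have h3 : deriv ψ (rr w x / s) ^ 2 * (rr w x / s) ≤ D ^ 2 := by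
    rcases le_total 1 (rr w x / s) with c | c
    · rw [ψ2 _ c]; simpa using sq_nonneg D
    · have := sq_le_sq' (abs_le.1 (hD (rr w x / s))).1 (abs_le.1 (hD (rr w x / s))).2
      nlinarith [sq_nonneg (deriv ψ (rr w x / s))]
  have h4 : max (rr w x / s) (3 / 4) ≤ rr w x / s + ψ (rr w x / s) ^ 2 := by
    refine max_le (by nlinarith) ?_
    rcases le_total (rr w x / s) (3 / 4) with c | c
    · rw [ψ1 _ c]; linarith
    · nlinarith
  have h5 : (3 : ℝ) / 4 ≤ max (rr w x / s) (3 / 4) := le_max_right _ _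
  rw [← div_div, mul_div_assoc (1 + 4 * D ^ 2)]
  generalize max (rr w x / s) (3 / 4) = m at *
  generalize ip g (fun y => ψ (rr w y / s)) (fun y => ψ (rr w y / s)) x = I at *
  generalize En g w x / s = E at *
  generalize ψ (rr w x / s) = a at *
  refine h2.trans ?_
  have h6 : 0 < m := by linarith
  have h7 : E + I ≤ (1 + 4 * D ^ 2) * E := by nlinarith [mul_le_mul_of_nonneg_right h3 hE]
  calc (E + a ^ 2 * En g p x + I) / (rr w x / s + a ^ 2)
      ≤ ((1 + 4 * D ^ 2) * E + a * En g p x) / m := by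
        refine div_le_div₀ (by positivity) ?_ h6 h4
        nlinarith [mul_nonneg (mul_nonneg a0 (sub_nonneg.2 a1)) hP]
    _ ≤ _ := by
        rw [add_div]
        gcongr
        rw [div_le_iff₀ h6]
        nlinarith [mul_nonneg a0 hP]

end out

/-- the average `√(avg f²)` of families -/
def avg {K : Type} (S : Finset K) (f : K → J → X → ℝ) (j : J) (y : X) : ℝ :=
  √((∑ k ∈ S, f k j y ^ 2) / S.card)

section avg

variable {K : Type} {S : Finset K} {f : K → J → X → ℝ}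

omit [Fintype J] [Mf0 n X] in
theorem avg_sq (j : J) (y : X) : avg S f j y ^ 2 = (∑ k ∈ S, f k j y ^ 2) / S.card :=
  Real.sq_sqrt (div_nonneg (Finset.sum_nonneg fun _ _ => sq_nonneg _) (Nat.cast_nonneg _))

omit [Fintype J] [Mf0 n X] in
theorem avg_in_pos (hS : S.Nonempty) {j : J} {y : X} (h : ∀ k ∈ S, f k j y ≠ 0) :
    0 < (∑ k ∈ S, f k j y ^ 2) / S.card :=
  div_pos (Finset.sum_pos (fun k hk => by have := h k hk; positivity) hS)
    (Nat.cast_pos.2 hS.card_pos)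

omit [Fintype J] [Mf0 n X] in
theorem avg_pos (hS : S.Nonempty) {j : J} {y : X} (h : ∀ k ∈ S, f k j y ≠ 0) :
    0 < avg S f j y := Real.sqrt_pos.2 (avg_in_pos hS h)

theorem avg_pot (V : J → ℝ) (y : X) :
    ∑ j, V j * avg S f j y ^ 2 = (∑ k ∈ S, ∑ j, V j * f k j y ^ 2) / S.card := by
  rw [Finset.sum_comm, Finset.sum_div]
  exact Finset.sum_congr rfl fun j _ => by rw [avg_sq, ← Finset.mul_sum, mul_div_assoc]

theorem avg_one (hS : S.Nonempty) {y : X} (h : ∀ k ∈ S, ∑ j, f k j y ^ 2 = 1) :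
    ∑ j, avg S f j y ^ 2 = 1 := by
  have := avg_pot (S := S) (f := f) (fun _ => 1) y
  simp only [one_mul] at this
  rw [this, Finset.sum_congr rfl h]
  have : (S.card : ℝ) ≠ 0 := (Nat.cast_pos.2 hS.card_pos).ne'
  simp [this]

omit [Fintype J] in
theorem sm_avg (hS : S.Nonempty) (hf : ∀ k ∈ S, ∀ j, Smooth (f k j))
    (h : ∀ k ∈ S, ∀ j y, f k j y ≠ 0) (j : J) : Smooth (avg S f j) :=
  CD.sqrt (CD.div_const (CD.sum fun k hk => CD.pow (hf k hk j) 2) _)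
    fun y => (avg_in_pos hS fun k hk => h k hk j y).ne'

/-- the energy of an average -/
theorem En_avg (hg : Met g) (hS : S.Nonempty) (hf : ∀ k ∈ S, ∀ j, DAt (f k j) x)
    (h : ∀ k ∈ S, ∀ j, f k j x ≠ 0) :
    En g (avg S f) x ≤ (∑ k ∈ S, En g (f k) x) / S.card := by
  have hc : (0 : ℝ) < S.card := Nat.cast_pos.2 hS.card_pos
  have e : (√(S.card : ℝ))⁻¹ ^ 2 = (S.card : ℝ)⁻¹ := by rw [inv_pow, Real.sq_sqrt hc.le]
  simp only [En]
  rw [Finset.sum_comm, Finset.sum_div]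
  refine Finset.sum_le_sum fun j _ => ?_
  have h0 := avg_in_pos hS fun k hk => h k hk j
  refine (ip_le_of_sq hg S (A := fun k y => (√(S.card : ℝ))⁻¹ * f k j y)
    (((DAt.fun_sum fun k hk => (hf k hk j).pow 2).div_const _).sqrt h0.ne')
    (fun k hk => (hf k hk j).const_mul _) (Real.sqrt_pos.2 h0).ne'
    (Eventually.of_forall fun y => ?_)).trans (le_of_eq ?_)
  · change avg S f j y ^ 2 = _
    simp only [avg_sq, mul_pow, e, ← Finset.mul_sum]
    rw [inv_mul_eq_div]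
  · rw [Finset.sum_div]
    exact Finset.sum_congr rfl fun k _ => by
      rw [ip_of_pd (pd_const_mul _) (pd_const_mul _), ← sq, e, inv_mul_eq_div]

end avg

end Vale.Agent.P210V
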