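import Vale.Agent.P210R.Defs
import Vale.Agent.P210V.Mix

/-!
# P210V: Fisher information and the statement `MIX` of `P210R`
-/

open Filter Topology Set Finset
open scoped ContDiff
open Vale.Agent.P366M Vale.Agent.P210G Vale.Agent.P210R

noncomputable section

namespace Vale.Agent.P210V

/-- the cut of small amplitudes -/
theorem exists_zeta {d : ℝ} (hd : 0 < d) : ∃ ζ : ℝ → ℝ, ContDiff ℝ ∞ ζ ∧ (∀ t ≤ d, ζ t = 0) ∧
    (∀ t, 0 ≤ deriv ζ t ∧ deriv ζ t ≤ 1) ∧ ∀ t, 0 ≤ ζ t ∧ t - 2 * d ≤ ζ t ∧ (0 ≤ t → ζ t ≤ t) := by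
  have hφ : ContDiff ℝ ∞ fun s : ℝ => Real.smoothTransition ((s - d) / d) :=
    Real.smoothTransition.contDiff.comp ((contDiff_id.sub contDiff_const).div_const d)
  have h1 : ∀ t, HasDerivAt (fun t => ∫ s in d..t, Real.smoothTransition ((s - d) / d))
      (Real.smoothTransition ((t - d) / d)) t := fun t =>
    (hφ.continuous.integral_hasStrictDerivAt _ t).hasDerivAt
  generalize hζ : (fun t => ∫ s in d..t, Real.smoothTransition ((s - d) / d)) = ζ at h1
  have e1 : deriv ζ = fun t => Real.smoothTransition ((t - d) / d) := funext fun t => (h1 t).deriv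
  have hD : Differentiable ℝ ζ := fun t => (h1 t).differentiableAt
  have z : ∀ t ≤ d, ζ t = 0 := fun t ht => by
    rw [← hζ]
    beta_reduce
    rw [intervalIntegral.integral_congr (g := fun _ => 0) fun s hs => by
      rw [uIcc_of_ge ht] at hs
      exact Real.smoothTransition.zero_of_nonpos
        (div_nonpos_of_nonpos_of_nonneg (by linarith [hs.2]) hd.le)]
    simp
  have m1 : Monotone ζ := monotone_of_deriv_nonneg hD fun t => by
    rw [e1]; exact Real.smoothTransition.nonneg _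
  have m2 : Monotone fun t => t - ζ t :=
    monotone_of_deriv_nonneg (differentiable_id.sub hD) fun t => by
      rw [((hasDerivAt_id' t).fun_sub (h1 t)).deriv]
      exact sub_nonneg.2 (Real.smoothTransition.le_one _)
  have m3 : MonotoneOn (fun t => ζ t - t) (Set.Ici (2 * d)) :=
    monotoneOn_of_deriv_nonneg (convex_Ici _) (hD.sub differentiable_id).continuous.continuousOn
      (hD.sub differentiable_id).differentiableOn fun t ht => by
        rw [((h1 t).fun_sub (hasDerivAt_id' t)).deriv, Real.smoothTransition.one_of_one_le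
          ((one_le_div hd).2 (by linarith [Set.mem_Ici.1 (interior_subset ht)]))]
        simp
  have p : ∀ t, 0 ≤ ζ t := fun t => by
    rcases le_total t d with h | h
    · rw [z t h]
    · exact (z d le_rfl).ge.trans (m1 h)
  refine ⟨ζ, contDiff_infty_iff_deriv.2 ⟨hD, by rwa [e1]⟩, z, fun t => ?_, fun t =>
    ⟨p t, ?_, fun ht => ?_⟩⟩
  · rw [e1]; exact ⟨Real.smoothTransition.nonneg _, Real.smoothTransition.le_one _⟩
  · rcases le_total t (2 * d) with h | h
    · linarith [p t]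
    · linarith [m3 (Set.mem_Ici.2 le_rfl) (Set.mem_Ici.2 h) h, p (2 * d)]
  · linarith [m2 ht, z 0 hd.le]

theorem zeta_sq {z t d : ℝ} (ht : 0 ≤ t) (hd : 0 ≤ d) (h0 : 0 ≤ z) (h : t - 2 * d ≤ z) :
    t ^ 2 - 4 * d * t ≤ z ^ 2 := by
  rcases le_total t (2 * d) with c | c
  · nlinarith
  · nlinarith

variable {n : ℕ} {X : Type} [Mf0 n X] {g : Fld n X} {x : X} {K L h : X → ℝ}

/-! ### Fisher information -/

theorem pd_zero (K0 : ∀ y, 0 ≤ K y) (hx : K x = 0) (i : Fin n) : pd i K x = 0 :=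
  pd_of_isLocalMin (Eventually.of_forall fun y => hx.trans_le (K0 y)) i

theorem ip_zero (K0 : ∀ y, 0 ≤ K y) (hx : K x = 0) (u : X → ℝ) : ip g K u x = 0 := by
  simp [ip, pd_zero K0 hx]

theorem ip_zero' (K0 : ∀ y, 0 ≤ K y) (hx : K x = 0) (u : X → ℝ) : ip g u K x = 0 := by
  simp [ip, pd_zero K0 hx]

theorem fi_nonneg (hg : Met g) (K0 : 0 ≤ K x) : 0 ≤ fi g K x :=
  div_nonneg (hg.ip_nonneg _ _) (by positivity)

theorem fi_zero (hx : K x = 0) : fi g K x = 0 := by simp [fi, hx]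

theorem fi_const (c : ℝ) : fi g (fun _ => c) x = 0 := by simp [fi, ip_const_left]

/-- `|dK|² = 4 K fi K` -/
theorem ip_eq_fi (K0 : ∀ y, 0 ≤ K y) : ip g K K x = 4 * K x * fi g K x := by
  rcases eq_or_ne (K x) 0 with e | e
  · rw [ip_zero K0 e, e]; ring
  · rw [fi]; field_simp

theorem ip_le_fi (K0 : ∀ y, 0 ≤ K y) : ip g K K x ≤ 4 * K x * fi g K x := (ip_eq_fi K0).le

theorem fi_le (hK : 0 ≤ K x) {T : ℝ} (hT : 0 ≤ T) (H : ip g K K x ≤ 4 * K x * T) :
    fi g K x ≤ T := by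
  rcases hK.eq_or_lt with e | e
  · rwa [fi_zero e.symm]
  · rw [fi, div_le_iff₀ (by positivity)]; linarith

theorem fi_anti {g' : Fld n X} (H : P210U.Up g g') (hg : Met g) (hg' : Met g') (hK : 0 ≤ K x) :
    fi g' K x ≤ fi g K x := div_le_div_of_nonneg_right (ip_anti H hg hg' K x) (by positivity)

theorem fi_sq {w : X → ℝ} (hw : DAt w x) (h0 : w x ≠ 0) :
    fi g (fun y => w y ^ 2) x = ip g w w x := by
  rw [fi, ip_of_pd (pd_sq hw) (pd_sq hw)]; field_simp; ring

theorem fi_sq_le (hg : Met g) {w : X → ℝ} (hw : DAt w x) :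
    fi g (fun y => w y ^ 2) x ≤ ip g w w x := by
  rcases eq_or_ne (w x) 0 with e | e
  · rw [fi_zero (by simp [e])]; exact hg.ip_nonneg _ _
  · exact (fi_sq hw e).le

theorem ip_sqrt_fi (hK : DAt K x) (h0 : 0 < K x) :
    ip g (fun y => √(K y)) (fun y => √(K y)) x = fi g K x := ip_sqrt hK h0

/-- subadditivity -/
theorem fi_sum_le (hg : Met g) {ι : Type*} (s : Finset ι) {A : ι → X → ℝ}
    (hA : ∀ k ∈ s, DAt (A k) x) (A0 : ∀ k ∈ s, ∀ y, 0 ≤ A k y) :
    fi g (fun y => ∑ k ∈ s, A k y) x ≤ ∑ k ∈ s, fi g (A k) x := by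
  refine fi_le (K := fun y => ∑ k ∈ s, A k y) (sum_nonneg fun k hk => A0 k hk x)
    (sum_nonneg fun k hk => fi_nonneg hg (A0 k hk x)) ?_
  have := ip_sum_le (x := x) hg s (c := 1) (u := fun y => ∑ k ∈ s, A k y) (A := A)
    (t := fun _ => 1) (a := fun k => 4 * A k x) (b := fun k => fi g (A k) x)
    (fun i => by simp only [one_mul, pd_sum s hA]) (fun k hk => by have := A0 k hk x; positivity)
    (fun k hk => fi_nonneg hg (A0 k hk x)) fun k hk => by
      rw [one_pow, one_mul]; exact ip_le_fi (A0 k hk)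
  rwa [one_pow, one_mul, ← mul_sum] at this

theorem fi_add_le (hg : Met g) (hK : DAt K x) (hL : DAt L x) (K0 : ∀ y, 0 ≤ K y)
    (L0 : ∀ y, 0 ≤ L y) : fi g (fun y => K y + L y) x ≤ fi g K x + fi g L x := by
  simpa using fi_sum_le hg (univ : Finset Bool) (A := fun k => if k then K else L)
    (fun k _ => by cases k <;> simpa) fun k _ y => by cases k <;> simp [K0, L0]

theorem fi_const_add (hg : Met g) {c : ℝ} (hc : 0 ≤ c) (hK : DAt K x) (K0 : ∀ y, 0 ≤ K y) :
    fi g (fun y => c + K y) x ≤ fi g K x := by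
  simpa only [fi_const, zero_add] using fi_add_le hg (dAt_const c) hK (fun _ => hc) K0

theorem fi_const_mul (c : ℝ) : fi g (fun y => c * K y) x = c * fi g K x := by
  rw [fi, fi, ip_of_pd (pd_const_mul c) (pd_const_mul c)]
  rcases eq_or_ne c 0 with rfl | e
  · simp
  · rw [mul_left_comm 4 c, mul_assoc, mul_div_mul_left _ _ e, mul_div_assoc]

/-- the product rule -/
theorem fi_mul (hg : Met g) (hh : DAt h x) (hK : DAt K x) (h0 : h x ≠ 0) (K0 : ∀ y, 0 ≤ K y) :
    fi g (fun y => h y * K y) x = h x * fi g K x + ip g K h x / 2 + K x * fi g h x := by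
  rcases eq_or_ne (K x) 0 with e | e
  · rw [fi_zero (by simp [e]), fi_zero e, ip_zero K0 e, e]; ring
  · rw [fi, fi, fi, ip_mul_left hh hK, ip_mul_right hh hK, ip_mul_right hh hK, hg.ip_sy h K]
    field_simp
    ring

theorem fi_sum_mul (hg : Met g) {ι : Type*} (s : Finset ι) {A : ι → X → ℝ} (hh : DAt h x)
    (hA : ∀ k ∈ s, DAt (A k) x) (h0 : h x ≠ 0) (A0 : ∀ k ∈ s, ∀ y, 0 ≤ A k y) :
    ∑ k ∈ s, fi g (fun y => h y * A k y) x = h x * ∑ k ∈ s, fi g (A k) x +
      ip g (fun y => ∑ k ∈ s, A k y) h x / 2 + (∑ k ∈ s, A k x) * fi g h x := by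
  rw [ip_sum_left s (t := fun _ => 1) (A := A) fun i => by simp only [one_mul, pd_sum s hA],
    mul_sum, sum_div, sum_mul, ← sum_add_distrib, ← sum_add_distrib]
  exact sum_congr rfl fun k hk => by rw [fi_mul hg hh (hA k hk) h0 (A0 k hk), one_mul]

/-- the terms of the normalisation -/
theorem fi_inv {R : X → ℝ} (hR : DAt R x) (h0 : R x ≠ 0) :
    ip g R (fun y => (R y)⁻¹) x / 2 + R x * fi g (fun y => (R y)⁻¹) x =
      -(ip g R R x / (4 * R x ^ 2)) := by
  have e : ∀ i, pd i (fun y => (R y)⁻¹) x = -(R x ^ 2)⁻¹ * pd i R x := fun i => by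
    rw [pd_inv hR h0]; ring
  rw [fi, ip_of_pd e e, ip_of_pd (u' := R) (s := 1) (fun _ => (one_mul _).symm) e]
  field_simp
  ring

/-- **normalisation**: `∑ fi (A k / R) = ∑ fi (A k) / R - |dR|² / (4 R²)`, `R = ∑ A k` -/
theorem fi_norm (hg : Met g) {ι : Type*} (s : Finset ι) {A : ι → X → ℝ} {R : X → ℝ}
    (hA : ∀ k ∈ s, DAt (A k) x) (A0 : ∀ k ∈ s, ∀ y, 0 ≤ A k y) (hR : ∀ y, R y = ∑ k ∈ s, A k y)
    (h0 : R x ≠ 0) : ∑ k ∈ s, fi g (fun y => (R y)⁻¹ * A k y) x =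
      (∑ k ∈ s, fi g (A k) x) / R x - ip g R R x / (4 * R x ^ 2) := by
  obtain rfl : R = fun y => ∑ k ∈ s, A k y := funext hR
  have hd := DAt.fun_sum hA
  rw [fi_sum_mul hg s (hd.inv h0) hA (inv_ne_zero h0) A0, add_assoc, fi_inv hd h0, inv_mul_eq_div]
  ring

/-! ### distributions -/

variable {p : ℕ → X → ℝ} {m : ℕ}

theorem REn_nonneg (hg : Met g) (p0 : ∀ j, 0 ≤ p j x) : 0 ≤ En g p m x :=
  sum_nonneg fun j _ => fi_nonneg hg (p0 j)

theorem REn_anti {g' : Fld n X} (H : P210U.Up g g') (hg : Met g) (hg' : Met g')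
    (p0 : ∀ j, 0 ≤ p j x) : En g' p m x ≤ En g p m x :=
  sum_le_sum fun j _ => fi_anti H hg hg' (p0 j)

/-- a multiple of a distribution -/
theorem REn_mul (hg : Met g) (hp : Dis p m) (hh : DAt h x) (h0 : h x ≠ 0) :
    En g (fun j y => h y * p j y) m x = h x * En g p m x + fi g h x := by
  have e : (fun y => ∑ k ∈ range m, p k y) = fun _ => 1 := funext hp.one
  rw [En, fi_sum_mul hg _ hh (fun k _ => (hp.sm k).diff x) h0 fun k _ => hp.nn k, e, hp.one,
    ip_const_left, En]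
  ring

theorem Dis.le_one (hp : Dis p m) {j : ℕ} (hj : j < m) (x : X) : p j x ≤ 1 :=
  (single_le_sum (f := fun j => p j x) (fun j _ => hp.nn j x) (mem_range.2 hj)).trans_eq (hp.one x)

/-- **MIX** -/
theorem mix_R : MIX := by
  intro n M _ G t p m Y r₀ d η hG ht t0 hp hY Y0 hr hd hη hm
  have hs := Real.sqrt_pos.2 hr
  obtain ⟨ζ, sζ, z0, z1, z2⟩ := exists_zeta (div_pos hd hs)
  obtain ⟨R, hR⟩ : ∃ R : M → ℝ, R = fun y => P210R.rr r₀ t m y + Y y := ⟨_, rfl⟩
  have eR : ∀ y, R y = ∑ j ∈ range m, t j y ^ 2 + (r₀ + Y y) := fun y => by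
    rw [hR]; simp only [P210R.rr]; ring
  have a0 : ∀ y, 0 < r₀ + Y y := fun y => add_pos hr (Y0 y)
  have s0 : ∀ y, 0 ≤ ∑ j ∈ range m, t j y ^ 2 := fun y => sum_nonneg fun _ _ => sq_nonneg _
  have R1 : ∀ y, r₀ ≤ R y := fun y => by linarith [eR y, s0 y, Y0 y]
  have R0 : ∀ y, 0 < R y := fun y => hr.trans_le (R1 y)
  have sR : Smooth R := by
    rw [funext eR]; exact CD.add (CD.sum fun j _ => CD.pow (ht j) 2) (CD.add cd_const hY)
  obtain ⟨u, hu⟩ : ∃ u : ℕ → M → ℝ, u = fun j y => t j y / √(R y) := ⟨_, rfl⟩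
  have q0 : ∀ y, 0 < √(R y) := fun y => Real.sqrt_pos.2 (R0 y)
  have su : ∀ j, Smooth (u j) := fun j => by
    rw [hu]; exact CD.div (ht j) (CD.sqrt sR fun y => (R0 y).ne') fun y => (q0 y).ne'
  have u0 : ∀ j y, 0 < u j y := fun j y => by rw [hu]; exact div_pos (t0 j y) (q0 y)
  have u2 : ∀ j y, u j y ^ 2 = (R y)⁻¹ * t j y ^ 2 := fun j y => by
    rw [hu]; beta_reduce; rw [div_pow, Real.sq_sqrt (R0 y).le, inv_mul_eq_div]
  obtain ⟨a, ha⟩ : ∃ a : M → ℝ, a = fun y => (R y)⁻¹ * (r₀ + Y y) := ⟨_, rfl⟩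
  have sa : Smooth a := by
    rw [ha]; exact CD.mul (CD.inv sR fun y => (R0 y).ne') (CD.add cd_const hY)
  have b0 : ∀ y, 0 < a y := fun y => by rw [ha]; exact mul_pos (inv_pos.2 (R0 y)) (a0 y)
  have one : ∀ y, ∑ j ∈ range m, u j y ^ 2 + a y = 1 := fun y => by
    simp only [u2, ha, ← mul_sum, ← mul_add, ← eR]
    exact inv_mul_cancel₀ (R0 y).ne'
  obtain ⟨L, hL⟩ : ∃ L : ℕ → M → ℝ, L = fun j y => ζ (u j y) ^ 2 + a y * p j y := ⟨_, rfl⟩
  have sz : ∀ j, Smooth fun y => ζ (u j y) := fun j => sζ.compM (su j)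
  have sL : ∀ j, Smooth (L j) := fun j => by
    rw [hL]; exact CD.add (CD.pow (sz j) 2) (CD.mul sa (hp.sm j))
  have L0 : ∀ j y, 0 ≤ L j y := fun j y => by
    rw [hL]; exact add_nonneg (sq_nonneg _) (mul_nonneg (b0 y).le (hp.nn j y))
  obtain ⟨N, hN⟩ : ∃ N : M → ℝ, N = fun y => ∑ j ∈ range m, L j y := ⟨_, rfl⟩
  have η0 : 0 ≤ η := nonneg_of_mul_nonneg_left (le_trans (by positivity) hm) hs
  have N1 : ∀ y, 1 - η / 2 ≤ N y := fun y => by
    have h1 : ∀ j ∈ range m, u j y ^ 2 - 4 * (d / √r₀) ≤ ζ (u j y) ^ 2 := fun j hj => by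
      have h2 : u j y ^ 2 ≤ ∑ j ∈ range m, u j y ^ 2 :=
        single_le_sum (f := fun j => u j y ^ 2) (fun _ _ => sq_nonneg _) hj
      have h3 : u j y ≤ 1 := by nlinarith [one y, b0 y, u0 j y]
      have h4 := zeta_sq (u0 j y).le (div_pos hd hs).le (z2 (u j y)).1 (z2 (u j y)).2.1
      nlinarith [div_pos hd hs]
    have h2 := sum_le_sum h1
    have h3 : m * (4 * (d / √r₀)) ≤ η / 2 := by
      rw [← mul_div_assoc, ← mul_div_assoc, div_le_iff₀ hs]; linarith
    simp only [hN, hL, sum_add_distrib, ← mul_sum, hp.one]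
    simp only [sum_sub_distrib, sum_const, card_range, nsmul_eq_mul] at h2
    linarith [one y]
  have N0 : ∀ y, 0 < N y := fun y => by linarith [N1 y]
  have N2 : ∀ y, (N y)⁻¹ ≤ 1 + η := fun y => by
    rw [inv_le_iff_one_le_mul₀ (N0 y)]; nlinarith [N1 y]
  have sN : Smooth N := by rw [hN]; exact CD.sum fun j _ => sL j
  refine ⟨fun j y => (N y)⁻¹ * L j y, ⟨fun j => CD.mul (CD.inv sN fun y => (N0 y).ne') (sL j),
    fun j y => mul_nonneg (inv_pos.2 (N0 y)).le (L0 j y), fun y => ?_⟩, fun j x h1 h2 => ?_,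
    fun x => ⟨fun j => ?_, ?_⟩⟩
  · rw [← mul_sum, ← congrFun hN y]
    exact inv_mul_cancel₀ (N0 y).ne'
  · have h3 : u j x ≤ d / √r₀ := by
      rw [hu]; exact div_le_div₀ hd.le h1 hs (Real.sqrt_le_sqrt (R1 x))
    simp only [hL, z0 _ h3, h2]
    simp
  · refine mul_le_mul (N2 x) ?_ (L0 j x) (by linarith)
    have h1 := pow_le_pow_left₀ (z2 (u j x)).1 ((z2 (u j x)).2.2 (u0 j x).le) 2
    rw [← congrFun hR x, ← inv_mul_eq_div, mul_add, ← u2, ← mul_assoc, ← congrFun ha x, hL]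
    linarith
  · rw [← congrFun hR x, ← hR]
    have h1 : En G (fun j y => (N y)⁻¹ * L j y) m x = _ := fi_norm hG (range m)
      (fun j _ => (sL j).diff x) (fun j _ => L0 j) (congrFun hN) (N0 x).ne'
    have h2 : ∀ j ∈ range m, fi G (L j) x ≤
        fi G (fun y => (R y)⁻¹ * t j y ^ 2) x + fi G (fun y => a y * p j y) x := fun j _ => by
      have e1 := fi_add_le hG (x := x) (((sz j).diff x).pow 2) ((sa.diff x).mul ((hp.sm j).diff x))
        (fun _ => sq_nonneg _) fun y => mul_nonneg (b0 y).le (hp.nn j y)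
      have e2 := fi_sq_le hG ((sz j).diff x)
      have e3 := (sζ.differentiable (by simp) (u j x)).hasDerivAt
      rw [ip_comp e3 e3 ((su j).diff x) ((su j).diff x)] at e2
      have e4 := fi_sq (g := G) ((su j).diff x) (u0 j x).ne'
      simp only [u2] at e4
      have e5 : deriv ζ (u j x) * deriv ζ (u j x) ≤ 1 :=
        mul_le_one₀ (z1 _).2 (z1 _).1 (z1 _).2
      have e6 := mul_le_mul_of_nonneg_right e5 (hG.ip_nonneg (u j) x)
      rw [hL]
      linarith
    have h3 := sum_le_sum h2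
    have h4 : ∑ j ∈ range m, fi G (fun y => a y * p j y) x = _ :=
      REn_mul hG hp (sa.diff x) (b0 x).ne'
    have dR := (sR.diff x).inv (R0 x).ne'
    have h5 := fi_sum_mul hG (range m) (A := fun j y => t j y ^ 2) dR
      (fun j _ => ((ht j).diff x).pow 2) (inv_ne_zero (R0 x).ne') fun _ _ _ => sq_nonneg _
    have h6 := fi_mul hG dR ((hY.diff x).const_add r₀) (inv_ne_zero (R0 x).ne') fun y => (a0 y).le
    have h7 := fi_inv (g := G) (sR.diff x) (R0 x).ne'
    have h8 : ip G R (fun y => (R y)⁻¹) x =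
        ip G (fun y => ∑ j ∈ range m, t j y ^ 2) (fun y => (R y)⁻¹) x +
          ip G (fun y => r₀ + Y y) (fun y => (R y)⁻¹) x := by
      rw [← ip_add_left (DAt.fun_sum fun j _ => ((ht j).diff x).pow 2) ((hY.diff x).const_add r₀),
        ← funext eR]
    have h9 := mul_le_mul_of_nonneg_left
      (fi_const_add hG hr.le (hY.diff x) fun y => (Y0 y).le) (inv_pos.2 (R0 x)).le
    rw [sum_congr rfl fun j _ => fi_sq ((ht j).diff x) (t0 j x).ne'] at h5
    rw [← ha] at h6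
    rw [sum_add_distrib, h4, h5, h6] at h3
    have h10 : ∑ j ∈ range m, fi G (L j) x ≤
        (∑ j ∈ range m, ip G (t j) (t j) x + fi G Y x) / R x - ip G R R x / (4 * R x ^ 2) +
          (r₀ + Y x) / R x * En G p m x := by
      rw [← inv_mul_eq_div, ← inv_mul_eq_div (R x) (r₀ + Y x), ← congrFun ha x, mul_add]
      rw [eR x, add_mul, ← eR x] at h7
      linarith
    have h11 : 0 ≤ ∑ j ∈ range m, fi G (L j) x := sum_nonneg fun j _ => fi_nonneg hG (L0 j x)
    have h12 : 0 ≤ ip G N N x / (4 * N x ^ 2) := div_nonneg (hG.ip_nonneg _ _) (by positivity)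
    have h13 := mul_le_mul (N2 x) h10 h11 (by linarith)
    rw [inv_mul_eq_div] at h13
    linarith

end Vale.Agent.P210V
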