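import Vale.Agent.P210R.Sta
import Vale.Agent.P210V.MixR

/-!
# P210V: the statement `MIXB` of `P210R`
-/

open Filter Topology Set Finset
open scoped ContDiff
open Vale.Agent.P366M Vale.Agent.P210G Vale.Agent.P210R

noncomputable section

namespace Vale.Agent.P210V

variable {n : ℕ} {M : Type} [Mf0 n M] {g : Fld n M} {x : M} {t W : ℕ → M → ℝ} {m : ℕ} {r₀ : ℝ}

theorem Rrr_pos (hr : 0 < r₀) (t : ℕ → M → ℝ) (m : ℕ) (y : M) : 0 < P210R.rr r₀ t m y :=
  add_pos_of_pos_of_nonneg hr (sum_nonneg fun _ _ => sq_nonneg _)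

theorem sm_Rrr (ht : ∀ j, Smooth (t j)) : Smooth (P210R.rr r₀ t m) :=
  CD.add cd_const (CD.sum fun j _ => CD.pow (ht j) 2)

theorem pd_Rrr (ht : ∀ j, Smooth (t j)) (i : Fin n) :
    pd i (P210R.rr r₀ t m) x = ∑ j ∈ range m, 2 * t j x * pd i (t j) x := by
  unfold P210R.rr
  rw [pd_const_add, pd_sum _ fun j _ => ((ht j).diff x).pow 2]
  exact sum_congr rfl fun j _ => pd_sq ((ht j).diff x) i

theorem ip_ff (ht : ∀ j, Smooth (t j)) (hr : 0 < r₀) : ip g (ff r₀ t m) (ff r₀ t m) x =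
    ip g (P210R.rr r₀ t m) (P210R.rr r₀ t m) x / (4 * P210R.rr r₀ t m x ^ 2) := by
  have h := Rrr_pos hr t m x
  have e : ∀ i, pd i (ff r₀ t m) x = 1 / (2 * P210R.rr r₀ t m x) * pd i (P210R.rr r₀ t m) x :=
    pd_comp (φ := fun t => Real.log t / 2)
      (((Real.hasDerivAt_log h.ne').div_const 2).congr_deriv (by ring)) ((sm_Rrr ht).diff x)
  rw [ip_of_pd e e]; field_simp; ring

theorem ip_Rrr_le (hg : Met g) (ht : ∀ j, Smooth (t j)) (hr : 0 ≤ r₀) :
    ip g (P210R.rr r₀ t m) (P210R.rr r₀ t m) x ≤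
      4 * P210R.rr r₀ t m x * ∑ j ∈ range m, ip g (t j) (t j) x := by
  have := ip_sum_le (x := x) hg (range m) (c := 1) (u := P210R.rr r₀ t m) (A := t)
    (t := fun j => 2 * t j x) (a := fun j => 4 * t j x ^ 2) (b := fun j => ip g (t j) (t j) x)
    (fun i => by rw [one_mul, pd_Rrr ht]) (fun _ _ => by positivity)
    (fun _ _ => hg.ip_nonneg _ _) fun _ _ => le_of_eq (by ring)
  rw [← mul_sum, one_pow, one_mul] at this
  have h : 0 ≤ ∑ j ∈ range m, ip g (t j) (t j) x := sum_nonneg fun _ _ => hg.ip_nonneg _ _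
  rw [show P210R.rr r₀ t m x = r₀ + ∑ j ∈ range m, t j x ^ 2 from rfl]
  nlinarith [mul_nonneg hr h]

/-- `|d log ρ|² ≤ T / r` -/
theorem ip_ff_le (hg : Met g) (ht : ∀ j, Smooth (t j)) (hr : 0 < r₀) :
    ip g (ff r₀ t m) (ff r₀ t m) x ≤ (∑ j ∈ range m, ip g (t j) (t j) x) / P210R.rr r₀ t m x := by
  have h := Rrr_pos hr t m x
  rw [ip_ff ht hr, div_le_div_iff₀ (by positivity) h]
  nlinarith [mul_le_mul_of_nonneg_right (ip_Rrr_le (x := x) (m := m) hg ht hr.le) h.le]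

theorem ip_pot_range (hg : Met g) (ht : ∀ j, Smooth (t j)) (hW : ∀ j, Smooth (W j))
    (W0 : ∀ j, 0 ≤ W j x) {θ Λ : ℝ} (hθ : 0 ≤ θ) (hΛ : 0 ≤ Λ)
    (hgr : ∀ j < m, ip g (W j) (W j) x ≤ W j x * (θ * W j x ^ 2 + Λ)) :
    ip g (fun y => ∑ j ∈ range m, W j y * t j y ^ 2) (fun y => ∑ j ∈ range m, W j y * t j y ^ 2) x ≤
      (∑ j ∈ range m, W j x * t j x ^ 2) * (2 * θ * ∑ j ∈ range m, (W j x * t j x) ^ 2 +
        2 * Λ * ∑ j ∈ range m, t j x ^ 2 + 8 * ∑ j ∈ range m, W j x * ip g (t j) (t j) x) := by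
  simp only [sum_range]
  exact ip_pot hg (V := fun j : Fin m => W j) (w := fun j : Fin m => t j) (fun j => (hW j).diff x)
    (fun j => (ht j).diff x) (fun j => W0 j) hθ hΛ fun j => hgr j j.2

/-- the exact cost of the mixing with `Y = z r` -/
theorem mix_exact (hg : Met g) {r z : M → ℝ} (hr : DAt r x) (hz : DAt z x) (r0 : 0 < r x)
    (z0 : 0 < z x) (T : ℝ) :
    (T + fi g (fun y => z y * r y) x) / (r x + z x * r x) -
      ip g (fun y => r y + z y * r y) (fun y => r y + z y * r y) x / (4 * (r x + z x * r x) ^ 2) =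
    (T / r x - ip g r r x / (4 * r x ^ 2)) / (1 + z x) +
      ip g z z x / (4 * z x * (1 + z x) ^ 2) := by
  have e1 : ∀ i, pd i (fun y => z y * r y) x = z x * pd i r x + r x * pd i z x := fun i => by
    rw [pd_mul hz hr]; ring
  have e2 : ∀ i, pd i (fun y => r y + z y * r y) x = (1 + z x) * pd i r x + r x * pd i z x :=
    fun i => by rw [pd_add hr (hz.mul hr), e1]; ring
  rw [fi, ip_of_pd_add e1, ip_of_pd_add' e1, ip_of_pd_add' e1, ip_of_pd_add e2, ip_of_pd_add' e2,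
    ip_of_pd_add' e2, hg.ip_sy z r]
  field_simp
  ring

/-- the real inequality of `MIXB` -/
theorem mixB_real {z r s X e α δ θ Λ L T b Z τ I J K : ℝ} (a0 : 0 < r) (hs : 0 < s) (hα : 0 < α)
    (hδ : 0 < δ) (he : 0 < e) (hθ : 0 ≤ θ) (hΛ : 0 ≤ Λ) (X0 : 0 ≤ X) (a1 : 0 < z) (L0 : 0 ≤ L)
    (L1 : L ≤ T) (b0 : 0 ≤ b) (Z0 : 0 ≤ Z) (t0 : 0 ≤ τ) (r1 : τ ≤ r) (i0 : 0 ≤ J)
    (P : J ≤ X * (2 * θ * b + 2 * Λ * τ + 8 * Z)) (e2 : K = 4 * r ^ 2 * L)
    (e3 : α * z = 2 * δ * s * (X + e) / (s + r))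
    (h1 : I ≤ 2 * ((z / (X + e)) ^ 2 * J) + 2 * ((-(z / (s + r))) ^ 2 * K)) :
    α * ((T - L) / (1 + z) + I / (4 * z * (1 + z) ^ 2)) ≤
      α * T - α / 2 * L + 8 * δ * Z + 2 * δ * θ * b + 2 * δ * Λ * s := by
  have a2 : 0 < s + r := by positivity
  have a3 : 0 < X + e := by positivity
  have h2 : (T - L) / (1 + z) ≤ T - L := div_le_self (by linarith) (by linarith)
  have Q0 : 0 ≤ 2 * θ * b + 2 * Λ * τ + 8 * Z := by positivity
  have h3 : J / (X + e) ≤ 2 * θ * b + 2 * Λ * τ + 8 * Z := by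
    rw [div_le_iff₀ a3]; linarith [mul_nonneg Q0 he.le]
  have h4 : I / (4 * z * (1 + z) ^ 2) ≤ z / (2 * (X + e)) * (J / (X + e)) + L / 2 := by
    have c1 : (z / (s + r)) ^ 2 * K ≤ 4 * z ^ 2 * L := by
      rw [e2, div_pow, div_mul_eq_mul_div, div_le_iff₀ (by positivity)]
      have : r ^ 2 ≤ (s + r) ^ 2 := pow_le_pow_left₀ a0.le (by linarith) 2
      linarith [mul_le_mul_of_nonneg_left this (by positivity : 0 ≤ 4 * z ^ 2 * L)]
    have c2 : 4 * z * (z / (2 * (X + e)) * (J / (X + e))) = 2 * ((z / (X + e)) ^ 2 * J) := by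
      field_simp; ring
    have c3 : 0 ≤ z / (2 * (X + e)) * (J / (X + e)) := by positivity
    rw [div_le_iff₀ (by positivity)]
    rw [neg_sq] at h1
    generalize z / (2 * (X + e)) * (J / (X + e)) = A at *
    linarith [mul_nonneg (mul_nonneg c3 a1.le) (by positivity : 0 ≤ 2 * z + z ^ 2),
      mul_nonneg (mul_nonneg L0 a1.le) (sq_nonneg (1 - z))]
  have h5 : α * (z / (2 * (X + e))) = δ * (s / (s + r)) := by
    rw [← mul_div_assoc, e3]; field_simp
  have h6 : s / (s + r) ≤ 1 := (div_le_one a2).2 (by linarith)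
  have h7 : s / (s + r) * τ ≤ s := by
    rw [div_mul_eq_mul_div, div_le_iff₀ a2]
    exact mul_le_mul_of_nonneg_left (by linarith) hs.le
  have h8 : 0 ≤ s / (s + r) := by positivity
  have h9 : α * (z / (2 * (X + e)) * (J / (X + e))) ≤
      8 * δ * Z + 2 * δ * θ * b + 2 * δ * Λ * s := by
    rw [← mul_assoc, h5]
    generalize s / (s + r) = ψ at *
    linarith [mul_le_mul_of_nonneg_left h3 (mul_nonneg hδ.le h8),
      mul_le_mul_of_nonneg_left h7 (by positivity : 0 ≤ 2 * δ * Λ),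
      mul_le_mul_of_nonneg_left h6 (by positivity : 0 ≤ 8 * δ * Z + 2 * δ * θ * b)]
  linarith [mul_le_mul_of_nonneg_left h2 hα.le, mul_le_mul_of_nonneg_left h4 hα.le]

/-- **MIXB** -/
theorem mixB : MIXB := by
  intro n M _ G t W m r₀ s α δ e θ Λ x hG ht hW W0 hr hs hα hδ he hθ hΛ hgr Y hY
  have L1 := ip_ff_le (x := x) (m := m) hG ht hr
  have L2 := ip_ff (g := G) (x := x) (m := m) ht hr
  have P := ip_pot_range hG ht hW (fun j => W0 j x) hθ hΛ hgr
  have sr := sm_Rrr (r₀ := r₀) (m := m) ht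
  have r0 := Rrr_pos hr t m
  have r1 : ∑ j ∈ range m, t j x ^ 2 ≤ P210R.rr r₀ t m x := le_add_of_nonneg_left hr.le
  have sX : Smooth fun y => ∑ j ∈ range m, W j y * t j y ^ 2 :=
    CD.sum fun j _ => CD.mul (hW j) (CD.pow (ht j) 2)
  have X0 : ∀ y, 0 ≤ ∑ j ∈ range m, W j y * t j y ^ 2 := fun y =>
    sum_nonneg fun j _ => mul_nonneg (W0 j y) (sq_nonneg _)
  have b0 : 0 ≤ ∑ j ∈ range m, (W j x * t j x) ^ 2 := sum_nonneg fun _ _ => sq_nonneg _
  have Z0 : 0 ≤ ∑ j ∈ range m, W j x * ip G (t j) (t j) x :=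
    sum_nonneg fun j _ => mul_nonneg (W0 j x) (hG.ip_nonneg _ _)
  have t0 : 0 ≤ ∑ j ∈ range m, t j x ^ 2 := sum_nonneg fun _ _ => sq_nonneg _
  obtain ⟨X, hX⟩ : ∃ X : M → ℝ, X = fun y => ∑ j ∈ range m, W j y * t j y ^ 2 := ⟨_, rfl⟩
  simp only [← congrFun hX] at hY X0 P sX
  change ip G X X x ≤ _ at P
  change Smooth X at sX
  generalize P210R.rr r₀ t m = r at *
  obtain ⟨z, hz⟩ : ∃ z : M → ℝ, z = fun y => 2 * δ * s / α * ((X y + e) / (s + r y)) := ⟨_, rfl⟩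
  have d0 : ∀ y, 0 < s + r y := fun y => add_pos hs (r0 y)
  have x0 : ∀ y, 0 < X y + e := fun y => add_pos_of_nonneg_of_pos (X0 y) he
  have sz : Smooth z := by
    rw [hz]
    exact CD.mul cd_const (CD.div (CD.add sX cd_const) (CD.add cd_const sr) fun y => (d0 y).ne')
  have z0 : ∀ y, 0 < z y := fun y => by
    rw [hz]; exact mul_pos (by positivity) (div_pos (x0 y) (d0 y))
  obtain rfl : Y = fun y => z y * r y := by
    rw [hY, hz]; funext y; have := d0 y; field_simp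
  refine ⟨CD.mul sz sr, fun y => mul_pos (z0 y) (r0 y), L1, ?_⟩
  rw [mix_exact hG (sr.diff x) (sz.diff x) (r0 x) (z0 x), ← L2]
  have e1 : ∀ i, pd i z x = z x / (X x + e) * pd i X x + -(z x / (s + r x)) * pd i r x :=
    fun i => by
      rw [congrFun hz x]
      conv_lhs => rw [hz]
      rw [pd_const_mul, pd_div ((sX.diff x).add_const e) ((sr.diff x).const_add s) (d0 x).ne',
        pd_add_const, pd_const_add]
      have := d0 x
      have := x0 x
      field_simp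
      ring
  have h1 := ip_add_le hG e1
  have a0 := r0 x
  have a2 := d0 x
  refine mixB_real a0 hs hα hδ he hθ hΛ (X0 x) (z0 x) (hG.ip_nonneg _ _) L1 b0 Z0 t0 r1
    (hG.ip_nonneg X x) P ?_ ?_ h1
  · rw [L2]; field_simp
  · rw [congrFun hz x]; field_simp

end Vale.Agent.P210V
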